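import Vale.Agent.P088.R2.H808.Z0.Wd
import Vale.Agent.P088.R2.H475.INF.LevD
import Vale.Agent.P088.R2.H313.PhiA

/-!
# P088, stage 3: bounds of the derivatives of the level, uniform in `σ`

`lev_u`: `|D^m levG| ≤ C R^{-(m-1)}`, `1 ≤ m ≤ 5`, where `|w|² < 5`, with `C` depending on `n` only.
-/

open Set Filter
open scoped ContDiff Topology Matrix

noncomputable section

namespace Vale.Agent.P088.R2.H794.Z0

open Vale.Agent.P088.LR Vale.Agent.P088.HY Vale.Agent.P088.R2.H644.Sy Vale.Agent.P088.R2.H475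

variable {n : ℕ}

/-- The admissible curvatures. -/
abbrev Sg := {σ : ℝ // 0 < σ ∧ σ ≤ 1 / 5000}

/-- The points. -/
def US (n : ℕ) (a : Sg) : Set (V n) := {y | HY.sq (wv n a y) < 5}

theorem US_open (a : Sg) : IsOpen (US n a) :=
  isOpen_lt (contDiff_sqw (n := n) a).continuous continuous_const

/-- Symbols of size one at the scale one. -/
abbrev S1 {F : Type*} [NormedAddCommGroup F] [NormedSpace ℝ F] (k : ℕ) (f : Sg → V n → F) : Prop :=
  Sf (US n) (fun _ _ => 1) (fun _ _ => 1) k f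

theorem S1.mul {k : ℕ} {f f' : Sg → V n → ℝ} (h : S1 k f) (h' : S1 k f') :
    S1 k fun a y => f a y * f' a y :=
  (Sf.mul US_open h h').wcongr fun _ _ _ => by simp

theorem S1.smul {F : Type*} [NormedAddCommGroup F] [NormedSpace ℝ F] {k : ℕ} {f : Sg → V n → ℝ}
    {f' : Sg → V n → F} (h : S1 k f) (h' : S1 k f') : S1 k fun a y => f a y • f' a y :=
  (Sf.smul US_open h h').wcongr fun _ _ _ => by simp

/-- Constants. -/
theorem S1.c {F : Type*} [NormedAddCommGroup F] [NormedSpace ℝ F] {k : ℕ} {c : Sg → F} {C : ℝ}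
    (h : ∀ a, ‖c a‖ ≤ C) : S1 (n := n) k fun a _ => c a :=
  Sf.const _ _ _ k c ⟨C, fun a _ _ => by simpa using h a⟩

/-- `w`. -/
theorem sf_w (k : ℕ) (i : Fin n) : S1 k fun (a : Sg) y => wv n a y i := by
  refine Sf.mono_k (k := k + 1) (Sf.succ (fun a => ?_) ⟨3, fun a y hy => ?_⟩ ?_) (Nat.le_succ k)
  · exact ((contDiff_apply ℝ ℝ i).comp (contDiff_wv (n := n) a)).contDiffOn
  · have h1 : wv n a y i ^ 2 ≤ HY.sq (wv n a y) :=
      Finset.single_le_sum (f := fun i => wv n a y i ^ 2) (fun j _ => sq_nonneg _)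
        (Finset.mem_univ i)
    have h2 : HY.sq (wv n a y) < 5 := hy
    rw [Real.norm_eq_abs, mul_one]
    exact abs_le_of_sq_le_sq (by linarith) (by norm_num)
  · have h1 : S1 (n := n) k fun (a : Sg) (_ : V n) =>
        (a : ℝ) • (ContinuousLinearMap.proj i : V n →L[ℝ] ℝ) := by
      refine S1.c (C := ‖(ContinuousLinearMap.proj i : V n →L[ℝ] ℝ)‖) fun a => ?_
      rw [norm_smul, Real.norm_of_nonneg a.2.1.le]
      exact mul_le_of_le_one_left (norm_nonneg _) (a.2.2.trans (by norm_num))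
    refine (h1.congr US_open fun a y _ => ?_).wcongr fun _ _ _ => by simp
    exact (fd_wv (n := n) a i y).fderiv

/-- `|w|²`. -/
theorem sf_th (k : ℕ) : S1 (n := n) k fun (a : Sg) y => HY.sq (wv n a y) := by
  have h : S1 (n := n) k fun (a : Sg) y => ∑ i, wv n a y i * wv n a y i :=
    Sf.sum US_open _ fun i _ => (sf_w k i).mul (sf_w k i)
  refine h.congr US_open fun a y _ => ?_
  exact Finset.sum_congr rfl fun i _ => pow_two _

/-- `10000 |w|² + 1`. -/
def rr (n : ℕ) (a : Sg) (y : V n) : ℝ := 10000 * HY.sq (wv n a y) + 1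

theorem rr_ge (a : Sg) (y : V n) : 1 ≤ rr n a y := by
  have := sq0 (wv n a y)
  unfold rr
  linarith

theorem sf_rr (k : ℕ) : S1 (n := n) k (rr n) :=
  ((sf_th k).csmul US_open 10000).add US_open (Sf.const1 _ _ k (1 : ℝ))

theorem sf_ri (k : ℕ) : S1 (n := n) k fun a y => (rr n a y)⁻¹ := by
  refine (Sf.inv US_open (fun _ _ _ => one_pos) (sf_rr k) one_pos fun a y _ => ?_).wcongr
    fun _ _ _ => by simp
  rw [one_mul, abs_of_pos (by linarith [rr_ge a y])]
  exact rr_ge a y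

/-- `(√(10000 |w|² + 1))⁻¹`. -/
theorem sf_rt (k : ℕ) : S1 (n := n) k fun a y => (√(rr n a y))⁻¹ := by
  have hp : ∀ (a : Sg) (y : V n), 0 < rr n a y := fun a y => by linarith [rr_ge a y]
  have hs : ∀ a : Sg, ContDiff ℝ ∞ (rr n a) := fun a =>
    (contDiff_const.mul (contDiff_sqw (n := n) a)).add contDiff_const
  have hf : ∀ a : Sg, ContDiffOn ℝ ∞ (fun y : V n => (√(rr n a y))⁻¹) (US n a) := fun a =>
    ((((hs a).sqrt fun y => (hp a y).ne').inv fun y => by
      have := Real.sqrt_pos.2 (hp a y)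
      exact this.ne')).contDiffOn
  have hℓ : Sf (US n) (fun _ _ => 1) (fun _ _ => (1 : ℝ)⁻¹) k
      (fun (a : Sg) y => (-(1 / 2) * (rr n a y)⁻¹) • fderiv ℝ (rr n a) y) := by
    have h1 : S1 (n := n) k fun a => fderiv ℝ (rr n a) :=
      (Sf.fd US_open (sf_rr (k + 1))).wcongr fun _ _ _ => by simp
    have h2 : S1 (n := n) k fun a y => -(1 / 2) * (rr n a y)⁻¹ := (sf_ri k).csmul US_open _
    exact (h2.smul h1).wcongr fun _ _ _ => by simp
  have h := Sf.log (k := k) (f := fun (a : Sg) (y : V n) => (√(rr n a y))⁻¹) US_open hf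
    (fun a y _ => ?_) hℓ
  · refine ((h.mono_k (Nat.le_succ k)).mono (A := 1) (fun _ _ _ => one_pos)
      (fun _ _ _ => abs_nonneg _) fun a y _ => ?_)
    have h1 : 1 ≤ √(rr n a y) := by
      rw [Real.one_le_sqrt]
      exact rr_ge a y
    rw [abs_of_pos (by positivity), one_mul]
    exact inv_le_one_of_one_le₀ h1
  · have h1 : HasFDerivAt (rr n a) (fderiv ℝ (rr n a) y) y :=
      ((hs a).differentiable (by simp) y).hasFDerivAt
    have hr := hp a y
    have hq := Real.sqrt_pos.2 hr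
    have h2 : HasDerivAt (fun t : ℝ => (√t)⁻¹) (-(1 / (2 * √(rr n a y))) / (√(rr n a y)) ^ 2)
        (rr n a y) := (Real.hasDerivAt_sqrt hr.ne').inv hq.ne'
    have h3 : HasFDerivAt (fun y : V n => (√(rr n a y))⁻¹)
        ((-(1 / (2 * √(rr n a y))) / (√(rr n a y)) ^ 2) • fderiv ℝ (rr n a) y) y :=
      h2.comp_hasFDerivAt y h1
    rw [h3.fderiv, smul_smul]
    congr 1
    rw [Real.sq_sqrt hr.le]
    field_simp

/-- The step. -/
theorem sf_ch (k : ℕ) : S1 (n := n) k fun (a : Sg) y => ch a (HY.sq (wv n a y)) := by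
  let u : Sg → V n → ℝ := fun a y => (HY.sq (wv n a y) - th0 a) / (th1 a - th0 a)
  have hs : ∀ a : Sg, ContDiffOn ℝ ∞ (u a) (US n a) := fun a =>
    (((contDiff_sqw (n := n) a).sub contDiff_const).div_const _).contDiffOn
  have hd : Sf (US n) (fun _ _ => 1) (fun _ _ => 1) k (fun a => fderiv ℝ (u a)) := by
    have h1 : S1 (n := n) k fun (a : Sg) y => ∑ i, (wv n a y i) •
        (((th1 a - th0 a)⁻¹ * (2 * a)) • (ContinuousLinearMap.proj i : V n →L[ℝ] ℝ)) := by
      refine Sf.sum US_open _ fun i _ => (sf_w k i).smul ?_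
      refine S1.c (C := 11 * ‖(ContinuousLinearMap.proj i : V n →L[ℝ] ℝ)‖) fun a => ?_
      rw [norm_smul]
      refine mul_le_mul_of_nonneg_right ?_ (norm_nonneg _)
      have h2 := th_lt a.2.1 a.2.2
      have h3 := a.2.1
      have h4 : 0 < th1 a - th0 a := by nlinarith
      rw [Real.norm_of_nonneg (by positivity), inv_mul_le_iff₀ h4]
      nlinarith
    refine h1.congr US_open fun a y _ => ?_
    have h2 : HasFDerivAt (u a) ((th1 a - th0 a)⁻¹ • ∑ i, (2 * a * wv n a y i) •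
        (ContinuousLinearMap.proj i : V n →L[ℝ] ℝ)) y := by
      have h3 := ((fd_sqw (n := n) a y).sub_const (th0 a)).const_mul ((th1 (a : ℝ) - th0 a)⁻¹)
      refine h3.congr_of_eventuallyEq (Eventually.of_forall fun w => ?_)
      simp only [u]
      ring
    rw [h2.fderiv, Finset.smul_sum]
    refine Finset.sum_congr rfl fun i _ => ?_
    rw [smul_smul, smul_smul]
    congr 1
    ring
  have h := H808.Z0.compd US_open hs (γ := fun _ _ => 1) hd k (Nat.le_succ k)
    (fun _ => Real.smoothTransition) (fun _ => Real.smoothTransition.contDiff) fun i _ => by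
      obtain ⟨C, -, hC⟩ := H313.Ph.st_bd.2 i
      exact ⟨C, fun a z _ => hC () _⟩
  exact h

/-- The profile of the gradient. -/
theorem sf_pp (k : ℕ) : S1 (n := n) k fun (a : Sg) y => pp a (HY.sq (wv n a y)) := by
  have h1 : S1 (n := n) k fun (a : Sg) y => (97 / 100 - 6 * (a : ℝ)) * √10001 * (√(rr n a y))⁻¹ +
      3 / 100 := by
    have h2 : S1 (n := n) k fun (a : Sg) (_ : V n) => (97 / 100 - 6 * (a : ℝ)) * √10001 := by
      refine S1.c (C := 1 * √10001) fun a => ?_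
      rw [norm_mul, Real.norm_of_nonneg (Real.sqrt_nonneg _)]
      refine mul_le_mul_of_nonneg_right ?_ (Real.sqrt_nonneg _)
      have := a.2.1
      have := a.2.2
      rw [Real.norm_of_nonneg (by linarith)]
      linarith
    exact (h2.mul (sf_rt k)).add US_open (Sf.const1 _ _ k (3 / 100 : ℝ))
  have h3 : S1 (n := n) k fun (a : Sg) y => 1 - ch a (HY.sq (wv n a y)) :=
    (Sf.const1 _ _ k (1 : ℝ)).sub US_open (sf_ch k)
  refine ((h3.mul h1).add US_open (sf_ch k)).congr US_open fun a y _ => ?_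
  rw [pp_eq]
  unfold pin hh rr
  ring

/-- **The gradient of the level.** -/
theorem sf_gg (k : ℕ) : S1 (n := n) k fun (a : Sg) => fderiv ℝ (gg n a) := by
  have h : S1 (n := n) k fun (a : Sg) y => ∑ i, (pp a (HY.sq (wv n a y)) * wv n a y i) •
      (ContinuousLinearMap.proj i : V n →L[ℝ] ℝ) :=
    Sf.sum US_open _ fun i _ => ((sf_pp k).mul (sf_w k i)).smul (Sf.const1 _ _ k _)
  refine h.congr US_open fun a y _ => ?_
  exact (fd_gg a.2.1 a.2.2 y).fderiv

/-- **Bounds of the derivatives of the level, uniform in `σ`.** -/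
theorem lev_u (n : ℕ) : ∃ C : ℝ, 1 ≤ C ∧ ∀ σ : ℝ, 0 < σ → σ ≤ 1 / 5000 → ∀ m, 1 ≤ m → m ≤ 5 →
    ∀ R kap Gs : ℝ, 0 < R → ∀ x : V n, HY.sq (wR n σ R x) < 5 →
      ‖iteratedFDeriv ℝ m (levG n σ R kap Gs) x‖ ≤ C * R⁻¹ ^ (m - 1) := by
  obtain ⟨C, hC0, hC⟩ := H808.Z0.Sf.unif (sf_gg (n := n) 4) fun _ _ _ _ => by simp
  refine ⟨1 + C, by linarith, fun σ h0 h1 m hm hm' R kap Gs hR x hx => ?_⟩
  obtain ⟨k, rfl⟩ : ∃ k, m = k + 1 := ⟨m - 1, by omega⟩
  have h2 := it_levG_le (n := n) (kap := kap) (Gs := Gs) h0 h1 hR k x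
  have h3 := hC k (by omega) ⟨σ, h0, h1⟩ (R⁻¹ • x) hx
  rw [norm_iteratedFDeriv_fderiv] at h3
  simp only [inv_one, one_pow, mul_one] at h3
  refine h2.trans ?_
  rw [Nat.add_sub_cancel, pow_succ]
  have hi : 0 < R⁻¹ := inv_pos.2 hR
  have e : R * (R⁻¹ ^ k * R⁻¹ * ‖iteratedFDeriv ℝ (k + 1) (gg n σ) (R⁻¹ • x)‖) =
      ‖iteratedFDeriv ℝ (k + 1) (gg n σ) (R⁻¹ • x)‖ * R⁻¹ ^ k := by
    field_simp
  rw [e]
  exact mul_le_mul_of_nonneg_right (by linarith) (pow_nonneg hi.le _)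

end Vale.Agent.P088.R2.H794.Z0
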