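import Vale.Agent.P088.R2.H794.Z0.Lv
import Vale.Agent.P088.R2.H794.Z0.Lu
import Vale.Agent.P088.R2.H437.Z0.Row

/-!
# P088, stage 3, EST': the leaf `z0` of the package, helper437's row `RowZ0`
-/

open Set Filter
open scoped ContDiff Topology Matrix

noncomputable section

namespace Vale.Agent.P088.R2.H794.Z0

open Vale.Agent.P088.LR Vale.Agent.P088.HY Vale.Agent.P088.R2.H31.EP
open Vale.Agent.P088.R2.H464.Cu (mid dif rq)
open Vale.Agent.P088.R2.H475 (levG lam0 wR)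
open Vale.Agent.P088.R2.H437.Z0 (Dt Hz Loc0 RowZ0 W0 uf)
open Vale.Agent.P088.R2.H404.INF (InfC evInf near_supp NearOk gl_le grad_near l₀_eq)
open Vale.Agent.P088.R2.H657.W (TR)
open Vale.Agent.P088.R2.H644 (Fs Fs1 Fs2 St)

variable {n : ℕ} {q : Cst} {d : Pk n} {z : VV n}

/-! ## The constants -/

/-- The uniform constant of the level. -/
def cU (n : ℕ) : ℝ := (lev_u n).choose

theorem cU_one (n : ℕ) : 1 ≤ cU n := (lev_u n).choose_spec.1

/-- The constant `Λ₀`. -/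
def L0 (n : ℕ) : ℝ := 2 * n + 1 + St 1 8 + 4 * St 2 8

/-- The constant `Λ`. -/
def LR (n : ℕ) (q : Cst) : ℝ :=
  cU n + cS q.e₁ + 2 * n + 4 + ∑ j ∈ Finset.range 4, |q.ph.Ct j|

theorem LR_nb (n : ℕ) : NB_ηc (LR n) := fun _ => rfl

theorem LR_ge (n : ℕ) (q : Cst) : 4 ≤ LR n q ∧ cU n ≤ LR n q ∧ cS q.e₁ ≤ LR n q ∧
    ∀ j ≤ 3, q.ph.Ct j ≤ LR n q := by
  have h1 := cU_one n
  have h2 := cS_nn q.e₁
  have h3 : (0 : ℝ) ≤ n := Nat.cast_nonneg n
  have h4 : 0 ≤ ∑ j ∈ Finset.range 4, |q.ph.Ct j| := Finset.sum_nonneg fun _ _ => abs_nonneg _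
  have h0 : LR n q = cU n + cS q.e₁ + 2 * n + 4 + ∑ j ∈ Finset.range 4, |q.ph.Ct j| := rfl
  refine ⟨by linarith, by linarith, by linarith, fun j hj => ?_⟩
  have h5 := Finset.single_le_sum (f := fun j => |q.ph.Ct j|) (fun _ _ => abs_nonneg _)
    (Finset.mem_range.2 (by omega : j < 4))
  have h6 := le_abs_self (q.ph.Ct j)
  linarith

/-- The constant of the tensors. -/
def cE (n : ℕ) : ℝ := 1 + H657.W.cG n 12

theorem cE_one (n : ℕ) : 1 ≤ cE n := by
  have := H657.W.cG_nn n 12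
  unfold cE
  linarith

/-- The thresholds. -/
structure LT (n : ℕ) (δ : Cst → ℝ) (q : Cst) : Prop where
  C : LC n q
  δ0 : 0 < δ q
  ε1 : cE n * q.ε ≤ 1
  εn : n * (cE n * q.ε) ≤ 1 / 2
  εs : cE n * q.ε ≤ δ q * (3 / 100 * q.σ)
  R : 1 ≤ δ q * (3 / 100 * q.σ) * q.R
  M1 : q.ph.Cb + 18 * q.nm ≤ δ q * q.M₀
  M2 : 1 ≤ δ q * q.M₀
  M3 : 1 ≤ δ q * (3 / 100 * q.σ) * q.M₀

theorem evLT (n : ℕ) {δ : Cst → ℝ} (hδ : NB_M₀ δ) (h0 : ∀ q, 0 < δ q) : EvC (LT n δ) := by
  have rε : ∀ q : Cst, δ q.b_ε = δ q := fun q => (hδ q.b_ε).symm.trans (hδ q)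
  have rR : ∀ q : Cst, δ q.b_R = δ q := fun q => (hδ q.b_R).symm.trans (hδ q)
  have hE := cE_one n
  have hn : (0 : ℝ) ≤ n := Nat.cast_nonneg n
  have e1 : EvC fun q => q.ε ≤ 1 / (2 * (n + 1) * cE n) :=
    EvC.at_ε (fun _ t => t ≤ 1 / (2 * (n + 1) * cE n)) fun _ => sml_le (by positivity)
  have e2 : EvC fun q => 0 < δ q * (3 / 100 * q.σ) / cE n →
      q.ε ≤ δ q * (3 / 100 * q.σ) / cE n :=
    EvC.ε_le (fun q => δ q * (3 / 100 * q.σ) / cE n) fun q => by
      show δ q.b_ε * _ / _ = _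
      rw [rε q]
      rfl
  have e3 : EvC fun q => q.σ ≤ 0 ∨ 1 ≤ δ q * (3 / 100 * q.σ) * q.R := by
    have := EvC.at_R (fun q t => q.σ ≤ 0 ∨ 1 ≤ δ q * (3 / 100 * q.σ) * t) fun q => by
      by_cases h : q.σ ≤ 0
      · exact Eventually.of_forall fun _ => Or.inl h
      · have hp : 0 < δ q * (3 / 100 * q.σ) := by
          have := h0 q
          have := not_le.1 h
          positivity
        filter_upwards [eventually_ge_atTop (1 / (δ q * (3 / 100 * q.σ)))] with t ht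
        right
        rw [div_le_iff₀ hp] at ht
        linarith
    refine this.mono fun q h => ?_
    rw [rR q] at h
    exact h
  have e4 : EvC fun q => q.ph.Cb + 18 * q.nm ≤ δ q * q.M₀ ∧ 1 ≤ δ q * q.M₀ := by
    have := EvC.at_M₀ (fun q t => q.ph.Cb + 18 * q.nm ≤ δ q * t ∧ 1 ≤ δ q * t) fun q => by
      have hp := h0 q
      filter_upwards [eventually_ge_atTop ((q.ph.Cb + 18 * q.nm) / δ q),
        eventually_ge_atTop (1 / δ q)] with t ht ht'
      rw [div_le_iff₀ hp] at ht ht'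
      exact ⟨by linarith, by linarith⟩
    refine this.mono fun q h => ?_
    rw [hδ q] at h
    exact h
  have e5 : EvC fun q => q.σ ≤ 0 ∨ 1 ≤ δ q * (3 / 100 * q.σ) * q.M₀ := by
    have := EvC.at_M₀ (fun q t => q.σ ≤ 0 ∨ 1 ≤ δ q * (3 / 100 * q.σ) * t) fun q => by
      by_cases h : q.σ ≤ 0
      · exact Eventually.of_forall fun _ => Or.inl h
      · have hp : 0 < δ q * (3 / 100 * q.σ) := by
          have := h0 q
          have := not_le.1 h
          positivity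
        filter_upwards [eventually_ge_atTop (1 / (δ q * (3 / 100 * q.σ)))] with t ht
        right
        rw [div_le_iff₀ hp] at ht
        linarith
    refine this.mono fun q h => ?_
    rw [hδ q] at h
    exact h
  refine (((evLC n).and (e1.and e2)).and (e3.and (e4.and e5))).mono ?_
  rintro q ⟨⟨C, a1, a2⟩, a3, ⟨a4, a5⟩, a6⟩
  have hσ := C.inf.σ0
  have hδq := h0 q
  have hp : 0 < δ q * (3 / 100 * q.σ) / cE n := by positivity
  have a2' := a2 hp
  rw [le_div_iff₀ (by positivity)] at a1 a2'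
  have hε := C.ε0
  exact
    { C := C
      δ0 := hδq
      ε1 := by nlinarith [mul_nonneg hn (mul_nonneg hε (by linarith : 0 ≤ cE n))]
      εn := by nlinarith [mul_nonneg hε (by linarith : 0 ≤ cE n)]
      εs := by linarith
      R := a3.resolve_left (not_le.2 hσ)
      M1 := a4
      M2 := a5
      M3 := a6.resolve_left (not_le.2 hσ) }

/-! ## The profile -/

theorem Sz_ev (hr : H509.Rad.Ok q.e₁ rp) {t : ℝ} (ht : t < 200) :
    (fun ρ => prS q.e₁ (2 * ρ)) =ᶠ[𝓝 t] fun ρ => Fs (2 ^ 2) (2 * ρ) := by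
  filter_upwards [Iio_mem_nhds ht] with u hu
  refine hr.pp.Ph_eq ?_
  have : u < 200 := hu
  unfold rp
  norm_num
  linarith

theorem Sz_d1 (hr : H509.Rad.Ok q.e₁ rp) {t : ℝ} (ht : t < 200) :
    deriv (fun ρ => prS q.e₁ (2 * ρ)) t = St 1 (8 * t) := by
  rw [(Sz_ev hr ht).deriv_eq]
  have h := ((H644.d2_Fs (2 ^ 2)).d1 (2 * t)).comp t ((hasDerivAt_id t).const_mul 2)
  have e : Fs1 (2 ^ 2) (2 * t) * (2 * 1) = St 1 (8 * t) := by
    unfold Fs1
    have : (2 : ℝ) ^ 2 * (2 * t) = 8 * t := by ring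
    rw [this]
    ring
  rw [e] at h
  exact h.deriv

theorem Sz_d2 (hr : H509.Rad.Ok q.e₁ rp) {t : ℝ} (ht : t < 200) :
    deriv (deriv (fun ρ => prS q.e₁ (2 * ρ))) t = 4 * (St 2 (8 * t) - St 3 (8 * t)) := by
  have h1 : deriv (fun ρ => prS q.e₁ (2 * ρ)) =ᶠ[𝓝 t] fun ρ => 2 * Fs1 (2 ^ 2) (2 * ρ) := by
    filter_upwards [Iio_mem_nhds ht] with u hu
    rw [Sz_d1 hr hu]
    unfold Fs1
    have : (2 : ℝ) ^ 2 * (2 * u) = 8 * u := by ring
    rw [this]
    ring
  rw [h1.deriv_eq]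
  have h := (((H644.d2_Fs (2 ^ 2)).d2 (2 * t)).comp t ((hasDerivAt_id t).const_mul 2)).const_mul 2
  have e : 2 * (Fs2 (2 ^ 2) (2 * t) * (2 * 1)) = 4 * (St 2 (8 * t) - St 3 (8 * t)) := by
    unfold Fs2
    have : (2 : ℝ) ^ 2 * (2 * t) = 8 * t := by ring
    rw [this]
    ring
  rw [e] at h
  exact h.deriv

/-- Bounds of the profile near the diagonal. -/
theorem Sz_bd (hr : H509.Rad.Ok q.e₁ rp) {t : ℝ} (h0 : 0 ≤ t) (h1 : t ≤ 1) :
    0 ≤ prS q.e₁ (2 * t) ∧ 1 / 2 ≤ deriv (fun ρ => prS q.e₁ (2 * ρ)) t ∧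
      deriv (fun ρ => prS q.e₁ (2 * ρ)) t ≤ L0 n ∧
      |deriv (deriv (fun ρ => prS q.e₁ (2 * ρ))) t| ≤ L0 n := by
  have hn : (0 : ℝ) ≤ n := Nat.cast_nonneg n
  have h8 : (0 : ℝ) ≤ 8 * t := by positivity
  have h8' : 8 * t ≤ 8 := by linarith
  have b1 := H644.St_nonneg (s := 8) (by norm_num) 1
  have b2 := H644.St_nonneg (s := 8) (by norm_num) 2
  rw [Sz_d1 hr (by linarith), Sz_d2 hr (by linarith)]
  refine ⟨H31.EP.PkOk.prS_nonneg hr (by linarith), ?_, ?_, ?_⟩
  · have := H644.St_one_le h8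
    linarith
  · have := H644.St_mono 1 (mem_Ici.2 h8) (mem_Ici.2 (by norm_num : (0 : ℝ) ≤ 8)) h8'
    unfold L0
    linarith
  · have a1 := H644.St_mono 2 (mem_Ici.2 h8) (mem_Ici.2 (by norm_num : (0 : ℝ) ≤ 8)) h8'
    have a2 := H644.St_nonneg h8 3
    have a3 : St 3 (8 * t) ≤ St 2 (8 * t) := H644.St_succ_le' h8 2
    rw [abs_of_nonneg (by linarith)]
    unfold L0
    linarith

/-! ## The level -/

/-- The second derivative as a quadratic form. -/
theorem hess_eq {l : V n → ℝ} (hl : ContDiff ℝ ∞ l) (x v : V n) :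
    fderiv ℝ (fun x => fderiv ℝ l x v) x v =
      ∑ i, ∑ j, v i * v j * pd j (pd i l) x := by
  have hd : ∀ x, DifferentiableAt ℝ (fderiv ℝ l) x := fun x =>
    ((hl.fderiv_right (m := ∞) le_rfl).differentiable (by norm_num)) x
  set B := fderiv ℝ (fderiv ℝ l) x with hB
  have h1 : ∀ w, fderiv ℝ (fun x => fderiv ℝ l x w) x = (ContinuousLinearMap.apply ℝ ℝ w).comp B := by
    intro w
    have h2 := (hd x).hasFDerivAt.clm_apply (hasFDerivAt_const w x)
    rw [h2.fderiv]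
    ext u
    simp [hB]
  have h3 : ∀ i j, pd j (pd i l) x = B (Pi.single j 1) (Pi.single i 1) := by
    intro i j
    have e : pd i l = fun x => fderiv ℝ l x (Pi.single i 1) := rfl
    rw [e]
    show fderiv ℝ (fun x => fderiv ℝ l x (Pi.single i 1)) x (Pi.single j 1) = _
    rw [h1]
    rfl
  have hv : v = ∑ i, v i • (Pi.single i (1 : ℝ) : V n) := by
    funext j
    simp [Finset.sum_apply, Pi.single_apply]
  rw [h1]
  show B v v = _
  simp only [h3]
  have h4 : ∀ w, B v w = ∑ j, v j * B (Pi.single j 1) w := by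
    intro w
    have e : B v = ∑ j, v j • B (Pi.single j 1) := by
      conv_lhs => rw [hv]
      rw [map_sum]
      exact Finset.sum_congr rfl fun j _ => map_smul _ _ _
    rw [e, sum_apply]
    rfl
  have h5 : ∀ j, B (Pi.single j 1) v = ∑ i, v i * B (Pi.single j 1) (Pi.single i 1) := by
    intro j
    conv_lhs => rw [hv]
    rw [map_sum]
    exact Finset.sum_congr rfl fun i _ => map_smul _ _ _
  rw [h4]
  simp only [h5, Finset.mul_sum]
  rw [Finset.sum_comm]
  exact Finset.sum_congr rfl fun i _ => Finset.sum_congr rfl fun j _ => by ring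

/-- Levels near a point. -/
theorem lip1 (hn : 1 ≤ n) (C : LC n q) (h : PkOk q d) {x y : V n}
    (hy : d.l y ≤ d.l₀ q + 3 * q.R) (hxy : ‖x - y‖ ≤ 1) :
    |d.l x - d.l y| ≤ 2 * n ∧ 240 * (n : ℝ) ≤ q.R := by
  have hR1 := C.R1
  have hcL := cL_one n q.σ
  have hn1 : (1 : ℝ) ≤ n := by exact_mod_cast hn
  have hnn : (n : ℝ) ≤ n ^ 2 := by nlinarith
  have hR : 240 * (n : ℝ) ≤ q.R := by nlinarith
  have h1 : (n : ℝ) * ‖x - y‖ ≤ n * 1 := mul_le_mul_of_nonneg_left hxy (by linarith)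
  refine ⟨?_, hR⟩
  rw [h.lev.lit] at hy ⊢
  rw [l₀_eq] at hy
  refine (H222.lev_lip hn C.inf.σ0 C.inf.σ1 C.R0 hy (by linarith)).trans ?_
  linarith

/-- The gradient at a near point. -/
theorem gs_near1 (hn : 1 ≤ n) (C : LC n q) (h : PkOk q d) {x y : V n}
    (hy : d.l y ≤ d.l₀ q + 3 * q.R) (hxy : ‖x - y‖ ≤ 1) (hg : (94 / 100) ^ 2 < gs d.l y) :
    1 / 8 ≤ gs d.l x := by
  have hR := C.R0
  have hR1 := C.R1
  have hcL := cL_one n q.σ
  have hnn : (0 : ℝ) ≤ n := Nat.cast_nonneg n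
  set δ := cL n q.σ * q.R⁻¹ with hδ
  have hδ0 : 0 ≤ δ := mul_nonneg (by linarith) (inv_nonneg.2 hR.le)
  have e1 : ∀ i, |pd i d.l x - pd i d.l y| ≤ δ := fun i => by
    refine (pd_lip hn C h x y i).trans ?_
    exact mul_le_of_le_one_right hδ0 hxy
  have e2 : ∀ i, pd i d.l y ^ 2 - 4 * n * δ ≤ pd i d.l x ^ 2 := fun i => by
    have a1 := pd_le C h hy i
    have a2 : |pd i d.l y| * |pd i d.l x - pd i d.l y| ≤ 2 * n * δ :=
      mul_le_mul a1 (e1 i) (abs_nonneg _) (by positivity)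
    rw [← abs_mul] at a2
    have a3 := (abs_le.1 a2).1
    nlinarith [sq_nonneg (pd i d.l x - pd i d.l y)]
  have e3 : gs d.l y - n * (4 * n * δ) ≤ gs d.l x := by
    unfold gs
    have : ∑ i : Fin n, (pd i d.l y ^ 2 - 4 * n * δ) ≤ ∑ i, pd i d.l x ^ 2 :=
      Finset.sum_le_sum fun i _ => e2 i
    rw [Finset.sum_sub_distrib, Finset.sum_const, Finset.card_univ, Fintype.card_fin,
      nsmul_eq_mul] at this
    exact this
  have e4 : n * (4 * n * δ) ≤ 1 / 60 := by
    rw [hδ]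
    have : n * (4 * n * (cL n q.σ * q.R⁻¹)) = 4 * (n ^ 2 * cL n q.σ) * q.R⁻¹ := by ring
    rw [this, ← div_eq_mul_inv, div_le_iff₀ hR]
    linarith
  norm_num at hg ⊢
  linarith

/-! ## The row -/

/-- The points near the middle. -/
def OB (z : VV n) : Set (V n) := Metric.ball (mid z) 1

theorem near_mid (hn : 1 ≤ n) (C : LC n q) (h : PkOk q d) (hz : z ∈ ΩZ q d) {x : V n}
    (hx : x ∈ OB z) : d.l x ≤ d.l₀ q + 3 * q.R ∧ 1 / 8 ≤ gs d.l x := by
  have h1 : ‖x - mid z‖ ≤ 1 := by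
    have : dist x (mid z) < 1 := hx
    rw [dist_eq_norm] at this
    exact this.le
  have hm := (ΩZ_pt hn C h hz).2.2
  have hlm : d.l (mid z) ≤ d.l₀ q + 51 / 20 * q.R := by
    have a1 := (abs_le.1 (mid_lev hn C h hz)).1
    have a2 := hz.2.1.1
    have a3 := hz.2.2.1.1
    have := C.R8
    linarith
  have hl3 : d.l (mid z) ≤ d.l₀ q + 3 * q.R := hm.1.le
  obtain ⟨a1, a2⟩ := lip1 hn C h hl3 h1
  have a3 := (abs_le.1 a1).2
  have hn1 : (1 : ℝ) ≤ n := by exact_mod_cast hn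
  exact ⟨by linarith, gs_near1 hn C h hl3 h1 hm.2⟩

/-- The jets of a tensor close to `1`. -/
theorem TR.jet {K : ℕ} {ε R : ℝ} {s : MF n} (tr : TR K ε R s) (hR : 0 < R) (hε : ε ≤ 1)
    {m : ℕ} (hm : m ≤ K) (x : V n) (i j : Fin n) :
    ‖iteratedFDeriv ℝ m (fun x => s x i j) x‖ ≤ 2 * R⁻¹ ^ m := by
  have hRi : 0 < R⁻¹ := inv_pos.2 hR
  have a1 : ‖iteratedFDeriv ℝ m
      (fun x => s x i j - (1 : Matrix (Fin n) (Fin n) ℝ) i j) x‖ ≤ 1 * R⁻¹ ^ m :=
    (tr.cl i j m hm x).trans (mul_le_mul_of_nonneg_right hε (pow_nonneg hRi.le _))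
  rcases Nat.eq_zero_or_pos m with rfl | hm0
  · rw [norm_iteratedFDeriv_zero] at a1 ⊢
    rw [pow_zero, mul_one] at a1 ⊢
    rw [Real.norm_eq_abs] at a1 ⊢
    have a2 : |(1 : Matrix (Fin n) (Fin n) ℝ) i j| ≤ 1 := by
      rw [Matrix.one_apply]
      split_ifs <;> simp
    have a3 := abs_add_le (s x i j - (1 : Matrix (Fin n) (Fin n) ℝ) i j)
      ((1 : Matrix (Fin n) (Fin n) ℝ) i j)
    rw [sub_add_cancel] at a3
    linarith
  · have e : iteratedFDeriv ℝ m
        (fun x => s x i j - (1 : Matrix (Fin n) (Fin n) ℝ) i j) x =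
        iteratedFDeriv ℝ m (fun x => s x i j) x := by
      have s1 : ContDiffAt ℝ (m : ℕ∞ω) (fun x => s x i j) x :=
        (tr.sm i j).contDiffAt.of_le (by exact_mod_cast le_top)
      have := iteratedFDeriv_sub_apply (𝕜 := ℝ) (i := m) s1
        (contDiffAt_const (c := (1 : Matrix (Fin n) (Fin n) ℝ) i j))
      have e2 : (fun x => s x i j - (1 : Matrix (Fin n) (Fin n) ℝ) i j) =
          (fun x => s x i j) - fun _ => (1 : Matrix (Fin n) (Fin n) ℝ) i j := rfl
      rw [e2, this, iteratedFDeriv_const_of_ne hm0.ne']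
      simp
    rw [e] at a1
    exact a1.trans (mul_le_mul_of_nonneg_right (by norm_num) (pow_nonneg hRi.le _))

theorem TR.nr' {ε ε' R : ℝ} {s : MF n} (tr : TR 12 ε R s) (hR : 0 < R) (hε : ε ≤ ε')
    (O : Set (V n)) : H464.Cu.Nr O ε' (ε' / R) (ε' / R ^ 2) s := by
  have h := (tr.mono hR le_rfl hε).nr (by norm_num) O
  have e1 : ε' * R⁻¹ = ε' / R := (div_eq_mul_inv _ _).symm
  have e2 : ε' * R⁻¹ ^ 2 = ε' / R ^ 2 := by rw [inv_pow, ← div_eq_mul_inv]
  rw [e1, e2] at h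
  exact h

theorem hz0 (hn : 1 ≤ n) {δ : Cst → ℝ} (T : LT n δ q) (h : PkOk q d) (hz : z ∈ ΩZ q d) :
    Loc0 (L0 n) (q.aC / 4) (3 / 10 * q.aC) (4 * q.c₀) (LR n q) (δ q) (cE n * q.ε)
      (3 / 100 * q.σ / q.R) q.R d.l (gi d.s₁) d.s₁ d.s₂ d.Φ (fun ρ => prS q.e₁ (2 * ρ))
      (d.W q) z := by
  have C := T.C
  obtain ⟨L1, L2, L3, L4⟩ := LR_ge n q
  have hR := C.R0
  have hR8 := C.R8
  have hRi : 0 < q.R⁻¹ := inv_pos.2 hR
  have hσ0 := C.inf.σ0
  have hσ1 := C.inf.σ1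
  have hc0 := C.T.T.c0
  have hc1 := C.c₁
  have hM := C.T.T.M1
  have hG := H657.W.cG_nn n 12
  have hε := C.ε0
  have hn0 : (0 : ℝ) ≤ n := Nat.cast_nonneg n
  have tr1 : TR 12 q.ε q.R d.s₁ := H657.W.Rg.t1 h.rg
  have tr2 : TR 12 q.ε q.R d.s₂ := H657.W.Rg.t2 h.rg
  have tr : TR 12 (H657.W.cG n 12 * q.ε) q.R (gi d.s₁) := tr1.inv hR C.ε1 C.ε2
  have hcE : q.ε ≤ cE n * q.ε := by
    have := cE_one n
    nlinarith
  have hcE' : H657.W.cG n 12 * q.ε ≤ cE n * q.ε := by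
    unfold cE
    nlinarith
  set Ω : Set (VV n) := ΩZ q d ∩ {w | w.1 ∈ OB z ∧ w.2 ∈ OB z ∧ mid w ∈ OB z} with hΩ
  have hmc : Continuous (mid : VV n → V n) := H464.Cu.contDiff_mid.continuous
  have oO : IsOpen (OB z) := Metric.isOpen_ball
  have oΩ : IsOpen Ω := by
    have o1 : IsOpen {w : VV n | w.1 ∈ OB z} := oO.preimage continuous_fst
    have o2 : IsOpen {w : VV n | w.2 ∈ OB z} := oO.preimage continuous_snd
    have o3 : IsOpen {w : VV n | mid w ∈ OB z} := oO.preimage hmc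
    exact (ΩZ_open C h).inter (o1.inter (o2.inter o3))
  have hΩZ : ∀ w ∈ Ω, w ∈ ΩZ q d := fun w hw => hw.1
  have near : ∀ x ∈ OB z, d.l x ≤ d.l₀ q + 3 * q.R ∧ 1 / 8 ≤ gs d.l x := fun x hx =>
    near_mid hn C h hz hx
  have w5 : ∀ x ∈ OB z, HY.sq (wR n q.σ q.R x) < 5 := fun x hx => by
    have h1 := (near x hx).1
    rw [h.lev.lit] at h1
    rw [l₀_eq] at h1
    have := H222.sq_wR_le (c := 3) hσ0 hσ1 hR (by norm_num) h1
    linarith
  have hu : ∀ w ∈ Ω, d.u q w = uf d.l w := fun w hw => u_eq hn C h (hΩZ w hw)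
  have hν : ∀ w ∈ Ω, NuZ q d (uf d.l w) := fun w hw => by
    rw [← hu w hw]
    exact ΩZ_nu C h (hΩZ w hw)
  have hρ : ∀ w ∈ Ω, 0 ≤ rq (gi d.s₁) w ∧ rq (gi d.s₁) w ≤ 1 := fun w hw => by
    have a1 := C.rq d h w
    have a2 := (hΩZ w hw).1
    exact ⟨a1.1, by nlinarith [a1.2.2]⟩
  have hdt : Dt (LR n q) q.R d.l (gi d.s₁) d.Φ (fun ρ => prS q.e₁ (2 * ρ)) (OB z) Ω :=
    { R1 := by linarith
      oO := oO
      oΩ := oΩ
      pt := fun w hw => hw.2
      nq := fun w hw => by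
        have := nm_c C (hΩZ w hw).1
        show ‖w.1 - w.2‖ ≤ 1
        linarith
      sl := h.lev.sm.contDiffOn
      jl := fun x hx m hm hm' => by
        rw [h.lev.lit]
        refine ((lev_u n).choose_spec.2 q.σ hσ0 hσ1 m hm hm' q.R d.kap d.Gs hR x (w5 x hx)).trans ?_
        exact mul_le_mul_of_nonneg_right L2 (pow_nonneg hRi.le _)
      sg := fun i j => (tr.sm i j).contDiffOn
      jg := fun x _ i j m hm => (TR.jet tr hR C.ε3 (by omega) x i j).trans
        (mul_le_mul_of_nonneg_right (by linarith) (pow_nonneg hRi.le _))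
      sΦ := h.Φs
      N0 := fun w hw => by linarith [h.N_ge (uf d.l w)]
      K0 := fun w hw => h.top.k0 _
      dΦ := fun w hw j hj => by
        refine (h.top.kd j _ (hν w hw).ua).trans ?_
        exact mul_le_mul_of_nonneg_right (L4 j hj) (h.top.k0 _).le
      sS := C.rad.pp.contDiff_Ph.comp (contDiff_const.mul contDiff_id)
      dS := fun w hw j hj =>
        ((S_ex q.e₁).choose_spec.2 C.rad.pp.contDiff_Ph j hj _ (hρ w hw)).trans L3 }
  have hzΩ : z ∈ Ω := by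
    refine ⟨hz, ?_, ?_, ?_⟩
    · show dist z.1 (mid z) < 1
      rw [dist_comm, dist_eq_norm]
      have := mid1 C hz.1
      linarith
    · show dist z.2 (mid z) < 1
      rw [dist_comm, dist_eq_norm]
      have := mid2 C hz.1
      linarith
    · show dist (mid z) (mid z) < 1
      rw [dist_self]
      norm_num
  refine ⟨OB z, Ω, hzΩ, ?_, fun w hw => W_eq hn C h (hΩZ w hw)⟩
  exact
    { dt := hdt
      ll := fun w hw v => by
        have d1 : Differentiable ℝ (fderiv ℝ d.l) :=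
          (h.lev.sm.fderiv_right (m := ∞) le_rfl).differentiable (by norm_num)
        have h2 : ∀ x ∈ OB z, ‖fderiv ℝ (fderiv ℝ d.l) x‖ ≤ LR n q / q.R := by
          intro x hx
          have h3 := hdt.jl x hx 2 (by norm_num) (by norm_num)
          rw [← norm_iteratedFDeriv_fderiv, norm_iteratedFDeriv_one] at h3
          rw [div_eq_mul_inv]
          simpa using h3
        have h4 := (convex_ball (mid z) 1).norm_image_sub_le_of_norm_fderiv_le
          (fun x _ => d1 x) h2 hw.2.2.1 hw.2.1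
        have h5 := nm_c C (hΩZ w hw).1
        have h6 : fderiv ℝ d.l w.1 v - fderiv ℝ d.l w.2 v =
            (fderiv ℝ d.l w.1 - fderiv ℝ d.l w.2) v := rfl
        rw [h6, ← Real.norm_eq_abs]
        have hL : 0 ≤ LR n q / q.R := div_nonneg (by linarith) hR.le
        calc ‖(fderiv ℝ d.l w.1 - fderiv ℝ d.l w.2) v‖ ≤
              ‖fderiv ℝ d.l w.1 - fderiv ℝ d.l w.2‖ * ‖v‖ := ContinuousLinearMap.le_opNorm _ _
          _ ≤ (LR n q / q.R * (4 * q.c₀)) * ‖v‖ :=
              mul_le_mul_of_nonneg_right (h4.trans (mul_le_mul_of_nonneg_left h5 hL)) (norm_nonneg _)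
          _ = _ := by ring
      n₁ := TR.nr' tr1 hR hcE _
      n₂ := TR.nr' tr2 hR hcE _
      ng := TR.nr' tr hR hcE' _
      j₁ := fun x _ i j m hm => (TR.jet tr1 hR C.ε1 (by omega) x i j).trans
        (mul_le_mul_of_nonneg_right (by linarith) (pow_nonneg hRi.le _))
      j₂ := fun x _ i j m hm => (TR.jet tr2 hR C.ε1 (by omega) x i j).trans
        (mul_le_mul_of_nonneg_right (by linarith) (pow_nonneg hRi.le _))
      ε0 := by
        have := cE_one n
        positivity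
      ε1 := T.ε1
      εn := T.εn
      εs := by
        have e : δ q * (3 / 100 * q.σ / q.R) = δ q * (3 / 100 * q.σ) / q.R := by ring
        rw [e]
        exact div_le_div_of_nonneg_right T.εs hR.le
      s0 := by positivity
      s1 := by
        rw [div_le_one hR]
        linarith
      Rs := by
        have e : δ q * (3 / 100 * q.σ / q.R) = (δ q * (3 / 100 * q.σ) * q.R) / q.R ^ 2 := by
          field_simp
        rw [e]
        exact div_le_div_of_nonneg_right T.R (by positivity)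
      lc := fun x _ v => by
        have h1 := (H475.hess_levG (kap := d.kap) (Gs := d.Gs) hσ0 hσ1 hR x v).1
        rw [← h.lev.lit] at h1
        rw [hess_eq h.lev.sm]
        refine le_trans (le_of_eq ?_) h1
        have e : H464.Cu.dt v v = HY.sq v := Finset.sum_congr rfl fun i _ => (pow_two _).symm
        rw [e]
        ring
      lg := fun x hx => (near x hx).2
      β0 := by positivity
      l0 := fun x hx w => by
        refine ((fderiv ℝ d.l x).le_opNorm w).trans ?_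
        refine mul_le_mul_of_nonneg_right ((fd_le C h (near x hx).1).trans ?_) (norm_nonneg _)
        have b1 := H644.St_nonneg (s := 8) (by norm_num) 1
        have b2 := H644.St_nonneg (s := 8) (by norm_num) 2
        unfold L0
        linarith
      dq := fun w hw => nm_c C (hΩZ w hw).1
      S0 := fun w hw => (Sz_bd (n := n) C.rad (hρ w hw).1 (hρ w hw).2).1
      S1 := fun w hw => (Sz_bd (n := n) C.rad (hρ w hw).1 (hρ w hw).2).2.1
      S2 := fun w hw => (Sz_bd (n := n) C.rad (hρ w hw).1 (hρ w hw).2).2.2.1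
      S3 := fun w hw => (Sz_bd (n := n) C.rad (hρ w hw).1 (hρ w hw).2).2.2.2
      EN := fun w hw => by
        have h1 := (hν w hw).NE
        have h2 : 0 ≤ q.aC * Real.exp (uf d.l w) := mul_nonneg C.T.T.aC0.le (Real.exp_pos _).le
        linarith
      EK := fun w hw => (hν w hw).Kl
      KN := fun w hw => by
        have h1 := (hν w hw).KN
        have h2 := h.N_ge (uf d.l w)
        nlinarith
      KE := fun w hw => by
        have h1 := (hν w hw).KE
        have h2 := h.N_ge (uf d.l w)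
        have h3 := Real.exp_pos (uf d.l w)
        refine h1.trans ?_
        have h4 : q.ph.Cb + 18 * q.nm ≤ δ q * deriv d.Φ (uf d.l w) :=
          T.M1.trans (mul_le_mul_of_nonneg_left h2 T.δ0.le)
        calc (q.ph.Cb + 18 * q.nm) * Real.exp (uf d.l w) ≤
              δ q * deriv d.Φ (uf d.l w) * Real.exp (uf d.l w) :=
              mul_le_mul_of_nonneg_right h4 h3.le
          _ = _ := by ring
      N1 := fun w hw => T.M2.trans (mul_le_mul_of_nonneg_left (h.N_ge _) T.δ0.le)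
      NR := fun w hw => by
        have h2 := h.N_ge (uf d.l w)
        have h4 : 1 ≤ δ q * (3 / 100 * q.σ) * deriv d.Φ (uf d.l w) :=
          T.M3.trans (mul_le_mul_of_nonneg_left h2 (by have := T.δ0; positivity))
        have e : δ q * (3 / 100 * q.σ / q.R * deriv d.Φ (uf d.l w)) =
            δ q * (3 / 100 * q.σ) * deriv d.Φ (uf d.l w) / q.R := by ring
        rw [e]
        exact div_le_div_of_nonneg_right h4 hR.le }

/-- The constant `c₁`. -/
def c1Z (q : Cst) : ℝ := if 0 < q.aC then 3 / 10 * q.aC else 1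

/-- **helper437's row.** -/
theorem rowZ0 (hn : 1 ≤ n) : RowZ0 n := by
  have hL0 : 1 ≤ L0 n := by
    have b1 := H644.St_nonneg (s := 8) (by norm_num) 1
    have b2 := H644.St_nonneg (s := 8) (by norm_num) 2
    have : (0 : ℝ) ≤ n := Nat.cast_nonneg n
    unfold L0
    linarith
  refine ⟨L0 n, 4, cE n, 3 / 100, c1Z, LR n, hL0, by norm_num,
    by linarith [cE_one n], by norm_num, by norm_num, fun _ => rfl, fun q => ?_, LR_nb n,
    fun q => by linarith [(LR_ge n q).1], fun δ hδ h0 => ?_⟩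
  · unfold c1Z
    split_ifs with h
    · positivity
    · norm_num
  · refine (evLT n hδ h0).mono fun q T d h z hz => ?_
    have e : c1Z q = 3 / 10 * q.aC := if_pos T.C.T.T.aC0
    rw [e]
    exact hz0 hn T h (supp T.C h hz)

end Vale.Agent.P088.R2.H794.Z0
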