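import Vale.Agent.P088.R2.H794.Z0.Nz
import Vale.Agent.P088.R2.H437.Z0.Spec
import Vale.Agent.P088.R2.H404.INF.Alv
import Vale.Agent.P088.R2.H509.EP.Lit2
import Vale.Agent.P088.R2.H657.W.Fam
import Vale.Agent.P088.R2.H222.PkT
import Vale.Agent.P088.R2.H475.INF.LevD

/-!
# P088, stage 3, EST': the leaf `z0` of the package

`evZ0`: `OZ`, `ΩZ` are open, `ΩZ` contains the support of the leaf `z0`, on `ΩZ` the weight is
`W0` (no correction, no slow exponential, no retraction, no top part) and the data satisfy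
helper437's `Dt`, with a constant which depends on the constants before `c'`.
-/

open Set Filter
open scoped ContDiff Topology Matrix

noncomputable section

namespace Vale.Agent.P088.R2.H794.Z0

open Vale.Agent.P088.LR Vale.Agent.P088.HY Vale.Agent.P088.R2.H31.EP
open Vale.Agent.P088.R2.H464.Cu (mid dif rq)
open Vale.Agent.P088.R2.H475 (levG lam0 wR)
open Vale.Agent.P088.R2.H437.Z0 (Dt W0 uf)
open Vale.Agent.P088.R2.H404.INF (InfC evInf near_supp NearOk gl_le grad_near l₀_eq)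
open Vale.Agent.P088.R2.H867.EP (Zo Cut Near)
open Vale.Agent.P088.R2.H657.W (TR)

variable {n : ℕ} {q : Cst} {d : Pk n} {z : VV n}

/-- The profile as a function of `ρ`. -/
def Sz (q : Cst) (t : ℝ) : ℝ := prS q.e₁ (2 * t)

/-- `|∇ l|²`. -/
def gs (l : V n → ℝ) (x : V n) : ℝ := ∑ i, pd i l x ^ 2

/-- The points. -/
def OZ (q : Cst) (d : Pk n) : Set (V n) :=
  {x | d.l x < d.l₀ q + 3 * q.R ∧ (94 / 100) ^ 2 < gs d.l x}

/-- The pairs. -/
def ΩZ (q : Cst) (d : Pk n) : Set (VV n) :=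
  {z | qq z < 16 * q.c₀ ^ 2 ∧ (d.l z.1 < d.l₀ q + 5 / 2 * q.R ∧ (95 / 100) ^ 2 < gs d.l z.1) ∧
    (d.l z.2 < d.l₀ q + 5 / 2 * q.R ∧ (95 / 100) ^ 2 < gs d.l z.2) ∧
    q.aC * Real.exp (d.u q z) < 3 * deriv d.Φ (d.u q z) ∧
    (d.u q z < d.uth q + 2 ∨ deriv d.Φ (d.u q z) < 9 * q.nm * Real.exp (d.u q z)) ∧
    d.u q z < d.utb q}

/-! ## The constants -/

theorem lev_ex (n : ℕ) (σ : ℝ) : ∃ C : ℝ, 1 ≤ C ∧ (1 ≤ n → 0 < σ → σ ≤ 1 / 5000 →
    ∀ m, 2 ≤ m → m ≤ 5 → ∀ R kap Gs : ℝ, 0 < R → ∀ x : V n,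
      ‖iteratedFDeriv ℝ m (levG n σ R kap Gs) x‖ ≤ C * R⁻¹ ^ (m - 1)) := by
  by_cases h : 1 ≤ n ∧ 0 < σ ∧ σ ≤ 1 / 5000
  · obtain ⟨hn, h0, h1⟩ := h
    choose C hC H using fun k => H475.levG_bound (n := n) hn h0 h1 k
    refine ⟨1 + ∑ k ∈ Finset.range 4, C k, ?_, fun _ _ _ m hm hm' R kap Gs hR x => ?_⟩
    · have : 0 ≤ ∑ k ∈ Finset.range 4, C k := Finset.sum_nonneg fun k _ => (hC k).le
      linarith
    · obtain ⟨k, rfl⟩ : ∃ k, m = k + 2 := ⟨m - 2, by omega⟩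
      refine (H k R kap Gs hR x).trans ?_
      have e : k + 2 - 1 = k + 1 := by omega
      rw [e]
      refine mul_le_mul_of_nonneg_right ?_ (pow_nonneg (inv_nonneg.2 hR.le) _)
      have := Finset.single_le_sum (f := C) (fun k _ => (hC k).le)
        (Finset.mem_range.2 (by omega : k < 4))
      linarith
  · exact ⟨1, le_rfl, fun a b c => absurd ⟨a, b, c⟩ h⟩

/-- The constant of the level. -/
def cL (n : ℕ) (σ : ℝ) : ℝ := (lev_ex n σ).choose

theorem cL_one (n : ℕ) (σ : ℝ) : 1 ≤ cL n σ := (lev_ex n σ).choose_spec.1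

theorem cL_spec {σ : ℝ} (hn : 1 ≤ n) (h0 : 0 < σ) (h1 : σ ≤ 1 / 5000) {m : ℕ} (hm : 2 ≤ m)
    (hm' : m ≤ 5) {R : ℝ} (kap Gs : ℝ) (hR : 0 < R) (x : V n) :
    ‖iteratedFDeriv ℝ m (levG n σ R kap Gs) x‖ ≤ cL n σ * R⁻¹ ^ (m - 1) :=
  (lev_ex n σ).choose_spec.2 hn h0 h1 m hm hm' R kap Gs hR x

theorem S_ex (e₁ : ℝ) : ∃ C : ℝ, 0 ≤ C ∧ (ContDiff ℝ ∞ (prS e₁) → ∀ j ≤ 5, ∀ t ∈ Icc (0 : ℝ) 1,
    |iteratedDeriv j (fun t => prS e₁ (2 * t)) t| ≤ C) := by
  by_cases h : ContDiff ℝ ∞ (prS e₁)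
  · have h2 : ContDiff ℝ ∞ fun t : ℝ => prS e₁ (2 * t) := h.comp (contDiff_const.mul contDiff_id)
    obtain ⟨M, hM, hS⟩ := H222.exists_Sk h2 (I := Icc (0 : ℝ) 1) isCompact_Icc 5
    exact ⟨M, hM, fun _ j hj t ht => hS.b j hj t ht⟩
  · exact ⟨0, le_rfl, fun h' => absurd h' h⟩

/-- The constant of the profile. -/
def cS (e₁ : ℝ) : ℝ := (S_ex e₁).choose

theorem cS_nn (e₁ : ℝ) : 0 ≤ cS e₁ := (S_ex e₁).choose_spec.1

/-- **The constant.** -/
def LZ (n : ℕ) (q : Cst) : ℝ :=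
  cL n q.σ + cS q.e₁ + 2 * n + 2 + ∑ j ∈ Finset.range 4, |q.ph.Ct j|

theorem LZ_nb (n : ℕ) : NB_c' (LZ n) := fun _ => rfl

theorem LZ_ge (n : ℕ) (q : Cst) : 1 ≤ LZ n q ∧ cL n q.σ ≤ LZ n q ∧ cS q.e₁ ≤ LZ n q ∧
    2 * (n : ℝ) ≤ LZ n q ∧ 2 ≤ LZ n q ∧ ∀ j ≤ 3, q.ph.Ct j ≤ LZ n q := by
  have h1 := cL_one n q.σ
  have h2 := cS_nn q.e₁
  have h3 : (0 : ℝ) ≤ n := Nat.cast_nonneg n
  have h4 : 0 ≤ ∑ j ∈ Finset.range 4, |q.ph.Ct j| := Finset.sum_nonneg fun _ _ => abs_nonneg _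
  have h0 : LZ n q = cL n q.σ + cS q.e₁ + 2 * n + 2 + ∑ j ∈ Finset.range 4, |q.ph.Ct j| := rfl
  refine ⟨by linarith, by linarith, by linarith, by linarith, by linarith, fun j hj => ?_⟩
  have h5 := Finset.single_le_sum (f := fun j => |q.ph.Ct j|) (fun _ _ => abs_nonneg _)
    (Finset.mem_range.2 (by omega : j < 4))
  have h6 := le_abs_self (q.ph.Ct j)
  linarith

/-- The thresholds. -/
structure LC (n : ℕ) (q : Cst) : Prop where
  inf : InfC q
  T : Tz q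
  rad : H509.Rad.Ok q.e₁ rp
  c₀ : 64 * n * q.c₀ ≤ 1
  c₁ : q.c₀ ≤ 1 / 8
  Cs : 6 * q.ph.Cb ≤ q.aC * q.Cs
  r₁ : 4 ≤ q.r₁
  ε0 : 0 ≤ q.ε
  ε1 : q.ε ≤ 1
  ε2 : n * q.ε ≤ 1 / 2
  ε3 : H657.W.cG n 12 * q.ε ≤ 1
  R1 : 240 * n ^ 2 * cL n q.σ ≤ q.R
  R8 : 8 ≤ q.R
  rq : ∀ d : Pk n, PkOk q d → ∀ z, 0 ≤ rq (gi d.s₁) z ∧ 1 / 2 * qq z ≤ 2 * rq (gi d.s₁) z ∧
      2 * rq (gi d.s₁) z ≤ 2 * qq z
  sm : ∀ d : Pk n, PkOk q d → LitSm q d

theorem evLC (n : ℕ) : EvC (LC n) := by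
  have hn : (0 : ℝ) ≤ n := Nat.cast_nonneg n
  have e1 : EvC fun q => q.c₀ ≤ 1 / (64 * (n + 1)) :=
    EvC.at_c₀ (fun _ t => t ≤ 1 / (64 * (n + 1))) fun _ => sml_le (by positivity)
  have e1' : EvC fun q => q.c₀ ≤ 1 / 8 :=
    EvC.at_c₀ (fun _ t => t ≤ 1 / 8) fun _ => sml_le (by norm_num)
  have e2 : EvC fun q => 6 * q.ph.Cb ≤ q.aC * q.Cs ∨ q.aC ≤ 0 := by
    refine EvC.at_Cs (fun q t => 6 * q.ph.Cb ≤ q.aC * t ∨ q.aC ≤ 0) fun q => ?_
    by_cases h : q.aC ≤ 0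
    · exact Eventually.of_forall fun _ => Or.inr h
    · filter_upwards [eventually_ge_atTop (6 * q.ph.Cb / q.aC)] with t ht
      left
      rw [div_le_iff₀ (not_le.1 h)] at ht
      linarith
  have e3 : EvC fun q => 8 ≤ q.c' * q.M₀ ∨ q.c' ≤ 0 := by
    refine EvC.at_M₀ (fun q t => 8 ≤ q.c' * t ∨ q.c' ≤ 0) fun q => ?_
    by_cases h : q.c' ≤ 0
    · exact Eventually.of_forall fun _ => Or.inr h
    · filter_upwards [eventually_ge_atTop (8 / q.c')] with t ht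
      left
      rw [div_le_iff₀ (not_le.1 h)] at ht
      linarith
  have e4 : EvC fun q => q.ε ≤ 1 / (2 * (n + 1) + H657.W.cG n 12) :=
    EvC.at_ε (fun _ t => t ≤ 1 / (2 * (n + 1) + H657.W.cG n 12)) fun _ => sml_le (by
      have := H657.W.cG_nn n 12
      positivity)
  have e5 : EvC fun q => 240 * n ^ 2 * cL n q.σ ≤ q.R :=
    EvC.at_R (fun q t => 240 * n ^ 2 * cL n q.σ ≤ t) fun q => eventually_ge_atTop _
  have e6 : EvC fun q => 8 ≤ q.R := EvC.at_R (fun q t => 8 ≤ t) fun q => eventually_ge_atTop _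
  refine (((evInf.and EvC.tz).and (EvC.rad.and (e1.and e1'))).and ((e2.and e3).and
    ((e4.and (e5.and e6)).and (EvC.pos.and ((EvC.rq n).and (EvC.litSm n)))))).mono ?_
  rintro q ⟨⟨⟨a1, a2⟩, a3, a4, a5⟩, ⟨a6, a7⟩, ⟨a8, a9, a10⟩,
    ⟨-, ⟨-, -, b3, -, -, -, -⟩, -, -, hε, -, -, -⟩, a11, a12⟩
  have hG := H657.W.cG_nn n 12
  rw [le_div_iff₀ (by positivity)] at a4 a8
  have hc := a2.T.c0
  exact
    { inf := a1
      T := a2
      rad := a3
      c₀ := by nlinarith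
      c₁ := a5
      Cs := a6.resolve_right (not_le.2 a2.T.aC0)
      r₁ := by
        have := a7.resolve_right (not_le.2 b3)
        unfold Cst.r₁
        linarith
      ε0 := hε.le
      ε1 := by nlinarith
      ε2 := by nlinarith
      ε3 := by nlinarith
      R1 := a9
      R8 := a10
      rq := fun d h => (a11 d h).2
      sm := a12 }

/-! ## Geometry -/

section geo

theorem LC.R0 (C : LC n q) : 0 < q.R := by linarith [C.R8]

theorem nm_dif {r : ℝ} (hr : 0 ≤ r) (h : qq z ≤ r ^ 2) : ‖z.1 - z.2‖ ≤ r :=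
  H222.norm_sub_le_qq hr h

theorem nm_c (C : LC n q) (h : qq z < 16 * q.c₀ ^ 2) : ‖z.1 - z.2‖ ≤ 4 * q.c₀ := by
  have := C.T.T.c0
  refine nm_dif (by positivity) (h.le.trans (le_of_eq ?_))
  ring

theorem mid1 (C : LC n q) (h : qq z < 16 * q.c₀ ^ 2) : ‖mid z - z.1‖ ≤ 2 * q.c₀ := by
  have h1 : mid z - z.1 = (1 / 2 : ℝ) • (z.2 - z.1) := by
    unfold mid
    module
  rw [h1, norm_smul, norm_sub_rev, Real.norm_of_nonneg (by norm_num)]
  linarith [nm_c C h]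

theorem mid2 (C : LC n q) (h : qq z < 16 * q.c₀ ^ 2) : ‖mid z - z.2‖ ≤ 2 * q.c₀ := by
  have h1 : mid z - z.2 = (1 / 2 : ℝ) • (z.1 - z.2) := by
    unfold mid
    module
  rw [h1, norm_smul, Real.norm_of_nonneg (by norm_num)]
  linarith [nm_c C h]

/-- Levels near a point. -/
theorem lip (hn : 1 ≤ n) (C : LC n q) (h : PkOk q d) {x y : V n}
    (hy : d.l y ≤ d.l₀ q + 3 * q.R) (hxy : ‖x - y‖ ≤ 2 * q.c₀) : |d.l x - d.l y| ≤ 1 / 16 := by
  have hc := C.c₀
  have hR := C.R8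
  have hnn : (0 : ℝ) ≤ n := Nat.cast_nonneg n
  have h1 : (n : ℝ) * ‖x - y‖ ≤ n * (2 * q.c₀) := mul_le_mul_of_nonneg_left hxy hnn
  rw [h.lev.lit] at hy ⊢
  rw [l₀_eq] at hy
  refine (H222.lev_lip hn C.inf.σ0 C.inf.σ1 C.R0 hy (by linarith)).trans ?_
  linarith

/-- The gradient near a point. -/
theorem pd_lip (hn : 1 ≤ n) (C : LC n q) (h : PkOk q d) (x y : V n) (i : Fin n) :
    |pd i d.l x - pd i d.l y| ≤ cL n q.σ * q.R⁻¹ * ‖x - y‖ := by
  have hs : ContDiff ℝ ∞ d.l := h.lev.sm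
  have h1 : Differentiable ℝ (fderiv ℝ d.l) :=
    (hs.fderiv_right (m := ∞) le_rfl).differentiable (by norm_num)
  have h2 : ∀ w ∈ (univ : Set (V n)), ‖fderiv ℝ (fderiv ℝ d.l) w‖ ≤ cL n q.σ * q.R⁻¹ := by
    intro w _
    have h3 := cL_spec hn C.inf.σ0 C.inf.σ1 (le_refl 2) (by norm_num) d.kap d.Gs C.R0 w
    rw [← h.lev.lit, ← norm_iteratedFDeriv_fderiv, norm_iteratedFDeriv_one] at h3
    simpa using h3
  have h4 := convex_univ.norm_image_sub_le_of_norm_fderiv_le (fun w _ => h1 w) h2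
    (mem_univ y) (mem_univ x)
  have h5 : pd i d.l x - pd i d.l y = (fderiv ℝ d.l x - fderiv ℝ d.l y) (Pi.single i 1) := rfl
  rw [h5, ← Real.norm_eq_abs]
  refine ((fderiv ℝ d.l x - fderiv ℝ d.l y).le_opNorm _).trans ?_
  rw [Pi.norm_single, norm_one, mul_one]
  exact h4

theorem fd_le (C : LC n q) (h : PkOk q d) {x : V n} (hx : d.l x ≤ d.l₀ q + 3 * q.R) :
    ‖fderiv ℝ d.l x‖ ≤ 2 * n := by
  have hσ := C.inf.σ1
  have hσ0 := C.inf.σ0
  rw [h.lev.lit] at hx ⊢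
  rw [l₀_eq] at hx
  refine H222.fd_lev_le hσ0 hσ C.R0 ?_
  have := H222.sq_wR_le (c := 3) hσ0 hσ C.R0 (by norm_num) hx
  linarith

theorem pd_le (C : LC n q) (h : PkOk q d) {x : V n} (hx : d.l x ≤ d.l₀ q + 3 * q.R) (i : Fin n) :
    |pd i d.l x| ≤ 2 * n := by
  have h1 := (fderiv ℝ d.l x).le_opNorm (Pi.single i 1)
  rw [Pi.norm_single, norm_one, mul_one] at h1
  exact h1.trans (fd_le C h hx)

/-- The gradient at a near point. -/
theorem gs_near (hn : 1 ≤ n) (C : LC n q) (h : PkOk q d) {x y : V n}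
    (hy : d.l y ≤ d.l₀ q + 3 * q.R) (hxy : ‖x - y‖ ≤ 2 * q.c₀) (hg : (95 / 100) ^ 2 < gs d.l y) :
    (94 / 100) ^ 2 < gs d.l x := by
  have hR := C.R0
  have hR1 := C.R1
  have hc1 := C.c₁
  have hcL := cL_one n q.σ
  have hnn : (0 : ℝ) ≤ n := Nat.cast_nonneg n
  set δ := cL n q.σ * q.R⁻¹ * (1 / 4) with hδ
  have e1 : ∀ i, |pd i d.l x - pd i d.l y| ≤ δ := fun i => by
    refine (pd_lip hn C h x y i).trans ?_
    exact mul_le_mul_of_nonneg_left (by linarith)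
      (mul_nonneg (by linarith) (inv_nonneg.2 hR.le))
  have hδ0 : 0 ≤ δ := by
    rw [hδ]
    have := inv_pos.2 hR
    positivity
  have e2 : ∀ i, pd i d.l y ^ 2 - 4 * n * δ ≤ pd i d.l x ^ 2 := fun i => by
    have a1 := pd_le C h hy i
    have a2 : |pd i d.l y| * |pd i d.l x - pd i d.l y| ≤ 2 * n * δ :=
      mul_le_mul a1 (e1 i) (abs_nonneg _) (by positivity)
    rw [← abs_mul] at a2
    have a3 := (abs_le.1 a2).1
    nlinarith [sq_nonneg (pd i d.l x - pd i d.l y)]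
  have e3 : gs d.l y - n * (4 * n * δ) ≤ gs d.l x := by
    unfold gs
    have : ∑ i : Fin n, (pd i d.l y ^ 2 - 4 * n * δ) ≤ ∑ i, pd i d.l x ^ 2 :=
      Finset.sum_le_sum fun i _ => e2 i
    rw [Finset.sum_sub_distrib, Finset.sum_const, Finset.card_univ, Fintype.card_fin,
      nsmul_eq_mul] at this
    exact this
  have e4 : n * (4 * n * δ) ≤ 1 / 240 := by
    rw [hδ]
    have : n * (4 * n * (cL n q.σ * q.R⁻¹ * (1 / 4))) = (n ^ 2 * cL n q.σ) * q.R⁻¹ := by ring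
    rw [this, ← div_eq_mul_inv, div_le_iff₀ hR]
    linarith
  norm_num at hg ⊢
  linarith

theorem OZ_open (h : PkOk q d) : IsOpen (OZ q d) := by
  have hs : ContDiff ℝ ∞ d.l := h.lev.sm
  have h1 : Continuous (gs d.l) := by
    unfold gs
    exact continuous_finsetSum _ fun i _ =>
      (((hs.fderiv_right (m := ∞) le_rfl).clm_apply contDiff_const).continuous).pow 2
  exact (isOpen_lt hs.continuous continuous_const).inter (isOpen_lt continuous_const h1)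

theorem ΩZ_open (C : LC n q) (h : PkOk q d) : IsOpen (ΩZ q d) := by
  have hs : ContDiff ℝ ∞ d.l := h.lev.sm
  have h1 : Continuous (gs d.l) := by
    unfold gs
    exact continuous_finsetSum _ fun i _ =>
      (((hs.fderiv_right (m := ∞) le_rfl).clm_apply contDiff_const).continuous).pow 2
  have hu : Continuous (d.u q) := (C.sm d h).u.continuous
  have hN : Continuous (deriv d.Φ) := h.Φ's.continuous
  have hE : Continuous fun z => Real.exp (d.u q z) := Real.continuous_exp.comp hu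
  have hNu : Continuous fun z => deriv d.Φ (d.u q z) := hN.comp hu
  have l1 : Continuous fun z : VV n => d.l z.1 := hs.continuous.comp continuous_fst
  have l2 : Continuous fun z : VV n => d.l z.2 := hs.continuous.comp continuous_snd
  have g1 : Continuous fun z : VV n => gs d.l z.1 := h1.comp continuous_fst
  have g2 : Continuous fun z : VV n => gs d.l z.2 := h1.comp continuous_snd
  refine (isOpen_lt qq_sm.continuous continuous_const).inter
    (((isOpen_lt l1 continuous_const).inter (isOpen_lt continuous_const g1)).inter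
    (((isOpen_lt l2 continuous_const).inter (isOpen_lt continuous_const g2)).inter
    ((isOpen_lt (continuous_const.mul hE) (continuous_const.mul hNu)).inter
    (IsOpen.inter ?_ (isOpen_lt hu continuous_const)))))
  exact (isOpen_lt hu continuous_const).union (isOpen_lt hNu (continuous_const.mul hE))

theorem ΩZ_pt (hn : 1 ≤ n) (C : LC n q) (h : PkOk q d) (hz : z ∈ ΩZ q d) :
    z.1 ∈ OZ q d ∧ z.2 ∈ OZ q d ∧ mid z ∈ OZ q d := by
  obtain ⟨h1, ⟨h2, h3⟩, ⟨h4, h5⟩, -⟩ := hz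
  have hR := C.R8
  have hy : d.l z.1 ≤ d.l₀ q + 3 * q.R := by linarith
  refine ⟨⟨by linarith, ?_⟩, ⟨by linarith, ?_⟩, ?_, gs_near hn C h hy (mid1 C h1) h3⟩
  · norm_num at h3 ⊢; linarith
  · norm_num at h5 ⊢; linarith
  · have := (abs_le.1 (lip hn C h hy (mid1 C h1))).2
    linarith

/-- The level of the middle. -/
theorem mid_lev (hn : 1 ≤ n) (C : LC n q) (h : PkOk q d) (hz : z ∈ ΩZ q d) :
    |d.l z.1 + d.l z.2 - 2 * d.l (mid z)| ≤ 1 / 8 := by
  obtain ⟨h1, ⟨h2, h3⟩, ⟨h4, h5⟩, -⟩ := hz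
  have hR := C.R8
  have a1 := abs_le.1 (lip hn C h (by linarith) (mid1 C h1))
  have a2 := abs_le.1 (lip hn C h (by linarith) (mid2 C h1))
  rw [abs_le]
  constructor <;> linarith [a1.1, a1.2, a2.1, a2.2]

/-- The correction is small. -/
theorem u_near (h : PkOk q d) (z : VV n) : |d.u q z - (d.l z.1 + d.l z.2)| ≤ 1 / 4 := by
  have h1 : d.u q z = d.l z.1 + d.l z.2 +
      2 * (d.χ (H31.EP.r2 (gi d.s₁) z) * d.μc q (d.l (mid z))) := rfl
  have h2 := (d.μc_abs q (d.l (mid z))).trans (h.ph.μb _)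
  have h3 := h.χb (H31.EP.r2 (gi d.s₁) z)
  rw [h1, add_sub_cancel_left, abs_mul, abs_mul, abs_of_nonneg h3.1, abs_of_pos (by norm_num)]
  have h4 : d.χ (H31.EP.r2 (gi d.s₁) z) * |d.μc q (d.l (mid z))| ≤ 1 * (1 / 8) :=
    mul_le_mul h3.2 h2 (abs_nonneg _) (by norm_num)
  linarith

/-- The numbers. -/
theorem ΩZ_nu (C : LC n q) (h : PkOk q d) (hz : z ∈ ΩZ q d) : NuZ q d (d.u q z) := by
  obtain ⟨-, -, -, h1, h2, h3⟩ := hz
  exact nuZ h C.T h1.le (h2.imp le_of_lt le_of_lt) h3.le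

/-- **No correction.** -/
theorem mu_zero (hn : 1 ≤ n) (C : LC n q) (h : PkOk q d) (hz : z ∈ ΩZ q d) :
    d.μc q (d.l (mid z)) = 0 := by
  have hu := abs_le.1 (u_near h z)
  have hm := abs_le.1 (mid_lev hn C h hz)
  have hν := ΩZ_nu C h hz
  have hR := C.R8
  have hth := H238.C.uth_ge h C.T.T
  have hl0 := H238.C.l0_nn h C.T.T
  have hM := C.T.T.M1
  rcases hν.ps with ⟨p1, p2, p3, p4⟩ | ⟨p1, p2, p3, p4⟩
  · refine H222.mu0 h ?_
    have ha := C.T.T.aC0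
    have h1 : Real.exp (2 * d.l (mid z)) ≤ q.Cs * q.M₀ := by
      have e1 : Real.exp (2 * d.l (mid z)) ≤ Real.exp (d.u q z) * 2 := by
        have e2 : Real.exp (3 / 8) ≤ 2 := by
          have := Real.exp_bound_div_one_sub_of_interval (x := 3 / 8) (by norm_num) (by norm_num)
          linarith
        calc Real.exp (2 * d.l (mid z)) ≤ Real.exp (d.u q z + 3 / 8) :=
              Real.exp_le_exp.2 (by linarith [hu.1, hm.1])
          _ = Real.exp (d.u q z) * Real.exp (3 / 8) := Real.exp_add _ _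
          _ ≤ _ := mul_le_mul_of_nonneg_left e2 (Real.exp_pos _).le
      have e3 : q.aC * (Real.exp (d.u q z) * 2) ≤ q.aC * (q.Cs * q.M₀) := by
        have e4 := hν.NE
        have e5 := mul_le_mul_of_nonneg_right C.Cs (by linarith : 0 ≤ q.M₀)
        linarith
      exact e1.trans (le_of_mul_le_mul_left e3 ha)
    have h2 := Real.log_le_log (Real.exp_pos _) h1
    rw [Real.log_exp] at h2
    unfold H313.Mu.sw
    linarith
  · refine d.μc_zero q C.R0 ?_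
    have : d.uth q = 2 * d.l₀ q + 22 / 10 * q.R := rfl
    linarith [hu.2, hm.2]

theorem u_eq (hn : 1 ≤ n) (C : LC n q) (h : PkOk q d) (hz : z ∈ ΩZ q d) :
    d.u q z = uf d.l z := by
  have h1 : d.u q z = d.l z.1 + d.l z.2 +
      2 * (d.χ (H31.EP.r2 (gi d.s₁) z) * d.μc q (d.l (mid z))) := rfl
  rw [h1, mu_zero hn C h hz]
  unfold uf
  ring

/-- **The weight.** -/
theorem W_eq (hn : 1 ≤ n) (C : LC n q) (h : PkOk q d) (hz : z ∈ ΩZ q d) :
    d.W q z = W0 d.l (gi d.s₁) d.Φ (Sz q) z := by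
  have hu := u_eq hn C h hz
  obtain ⟨h1, ⟨h2, h3⟩, ⟨h4, h5⟩, -⟩ := hz
  have hR := C.R8
  have e1 : d.P z.1 = z.1 := h.ret.id _ (by linarith)
  have e2 : d.P z.2 = z.2 := h.ret.id _ (by linarith)
  have e3 : d.Θ (d.l z.1) = 0 := h.Θ0 _ (by linarith)
  have e4 : d.Θ (d.l z.2) = 0 := h.Θ0 _ (by linarith)
  have e5 : d.W q z = WW (d.F q) d.l (gi d.s₁) (d.P z.1, d.P z.2) +
      (d.Θ (d.l z.1) + d.Θ (d.l z.2)) := rfl
  rw [e5, e1, e2, e3, e4, add_zero, add_zero]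
  have hr := C.r₁
  have hc := C.c₁
  have hc0 := C.T.T.c0
  have hrd : 1 < q.r₁ * Real.exp (-1) := by
    have a1 : Real.exp 1 < 3 := by linarith [Real.exp_one_lt_d9]
    have a2 : 1 / 3 < Real.exp (-1) := by
      rw [Real.exp_neg, ← one_div]
      exact one_div_lt_one_div_of_lt (Real.exp_pos _) a1
    nlinarith
  have hq : H31.EP.r2 (gi d.s₁) z < (q.r₁ * Real.exp (-1)) ^ 2 := by
    have a3 := (C.rq d h z).2.2
    have a4 : H31.EP.r2 (gi d.s₁) z = 2 * rq (gi d.s₁) z := rfl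
    rw [a4]
    nlinarith
  have e6 : WW (d.F q) d.l (gi d.s₁) (z.1, z.2) = d.Φ (d.u q z) +
      1 * st (d.F q) (d.u q z) (H31.EP.r2 (gi d.s₁) z) := rfl
  rw [e6, st_in' h.ok hq, hu, one_mul]
  rfl

/-- **helper437's data.** -/
theorem dt (hn : 1 ≤ n) (C : LC n q) (h : PkOk q d) :
    Dt (LZ n q) q.R d.l (gi d.s₁) d.Φ (Sz q) (OZ q d) (ΩZ q d) := by
  obtain ⟨L1, L2, L3, L4, L5, L6⟩ := LZ_ge n q
  have hR := C.R0
  have hRi : 0 < q.R⁻¹ := inv_pos.2 hR
  have tr : TR 12 (H657.W.cG n 12 * q.ε) q.R (gi d.s₁) :=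
    (H657.W.Rg.t1 h.rg).inv hR C.ε1 C.ε2
  refine
    { R1 := by linarith [C.R8]
      oO := OZ_open h
      oΩ := ΩZ_open C h
      pt := fun z hz => ΩZ_pt hn C h hz
      nq := fun z hz => ?_
      sl := h.lev.sm.contDiffOn
      jl := fun x hx m hm hm' => ?_
      sg := fun i j => (tr.sm i j).contDiffOn
      jg := fun x _ i j m hm => ?_
      sΦ := h.Φs
      N0 := fun z hz => ?_
      K0 := fun z hz => h.top.k0 _
      dΦ := fun z hz j hj => ?_
      sS := ?_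
      dS := fun z hz j hj => ?_ }
  · have := nm_c C hz.1
    have := C.c₁
    show ‖z.1 - z.2‖ ≤ 1
    linarith
  · rcases Nat.lt_or_ge m 2 with h2 | h2
    · obtain rfl : m = 1 := by omega
      rw [norm_iteratedFDeriv_one, Nat.sub_self, pow_zero, mul_one]
      exact (fd_le C h hx.1.le).trans L4
    · rw [h.lev.lit]
      refine (cL_spec hn C.inf.σ0 C.inf.σ1 h2 hm' d.kap d.Gs hR x).trans ?_
      exact mul_le_mul_of_nonneg_right L2 (pow_nonneg hRi.le _)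
  · have a1 : ‖iteratedFDeriv ℝ m
        (fun x => gi d.s₁ x i j - (1 : Matrix (Fin n) (Fin n) ℝ) i j) x‖ ≤ 1 * q.R⁻¹ ^ m :=
      (tr.cl i j m (by omega) x).trans (mul_le_mul_of_nonneg_right C.ε3 (pow_nonneg hRi.le _))
    rcases Nat.eq_zero_or_pos m with rfl | hm0
    · rw [norm_iteratedFDeriv_zero] at a1 ⊢
      rw [pow_zero, mul_one] at a1 ⊢
      rw [Real.norm_eq_abs] at a1 ⊢
      have a2 : |(1 : Matrix (Fin n) (Fin n) ℝ) i j| ≤ 1 := by
        rw [Matrix.one_apply]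
        split_ifs <;> simp
      have a3 := abs_add_le (gi d.s₁ x i j - (1 : Matrix (Fin n) (Fin n) ℝ) i j)
        ((1 : Matrix (Fin n) (Fin n) ℝ) i j)
      rw [sub_add_cancel] at a3
      linarith
    · have e : iteratedFDeriv ℝ m
          (fun x => gi d.s₁ x i j - (1 : Matrix (Fin n) (Fin n) ℝ) i j) x =
          iteratedFDeriv ℝ m (fun x => gi d.s₁ x i j) x := by
        have s1 : ContDiffAt ℝ (m : ℕ∞ω) (fun x => gi d.s₁ x i j) x :=
          (tr.sm i j).contDiffAt.of_le (by exact_mod_cast le_top)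
        have := iteratedFDeriv_sub_apply (𝕜 := ℝ) (i := m) s1
          (contDiffAt_const (c := (1 : Matrix (Fin n) (Fin n) ℝ) i j))
        have e2 : (fun x => gi d.s₁ x i j - (1 : Matrix (Fin n) (Fin n) ℝ) i j) =
            (fun x => gi d.s₁ x i j) - fun _ => (1 : Matrix (Fin n) (Fin n) ℝ) i j := rfl
        rw [e2, this, iteratedFDeriv_const_of_ne hm0.ne']
        simp
      rw [e] at a1
      exact a1.trans (mul_le_mul_of_nonneg_right (by linarith) (pow_nonneg hRi.le _))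
  · have := C.T.T.M1
    linarith [h.N_ge (uf d.l z)]
  · have hν := ΩZ_nu C h hz
    have hu := u_eq hn C h hz
    rw [← hu]
    refine (h.top.kd j _ hν.ua).trans ?_
    exact mul_le_mul_of_nonneg_right (L6 j hj) (h.top.k0 _).le
  · exact C.rad.pp.contDiff_Ph.comp (contDiff_const.mul contDiff_id)
  · have a1 := C.rq d h z
    have a2 := hz.1
    have a3 := C.c₁
    have a4 := C.T.T.c0
    refine ((S_ex q.e₁).choose_spec.2 C.rad.pp.contDiff_Ph j hj _ ⟨a1.1, ?_⟩).trans L3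
    nlinarith [a1.2.2]

end geo

/-! ## The support -/

section supp

open Vale.Agent.P088.R2.H867.EP (ch_tside tauR_le tauU_le alive_nRS Alive)

theorem V_lt {x y : ℝ} (h : Real.smoothTransition x * Real.smoothTransition y < 1) :
    x < 1 ∨ y < 1 := by
  by_contra hc
  push Not at hc
  rw [Real.smoothTransition.one_of_one_le hc.1, Real.smoothTransition.one_of_one_le hc.2,
    one_mul] at h
  exact lt_irrefl _ h

theorem supp (C : LC n q) (h : PkOk q d) (hz : z ∈ tsupport (d.ch q .z0)) : z ∈ ΩZ q d := by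
  have S := C.sm d h
  have hn := near_supp C.inf h (k := .z0) rfl hz
  have hR := C.R8
  have hc0 := C.T.T.c0
  have hM := C.T.T.M1
  have ha := C.T.T.aC0
  have hrq := C.rq d h z
  have hNp := h.N_pos hM (d.u q z)
  have hE := Real.exp_pos (d.u q z)
  -- the cuts
  have c1 := (ch_tside (F := Fl) Fl_pair isOpen_univ (k := .z0) (i := .r) (by decide)
    (S.cv .r).continuous.continuousOn (mem_univ z) hz).2 (by decide)
  have c2 := (ch_tside (F := Fl) Fl_pair isOpen_univ (k := .z0) (i := .e0) (by decide)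
    (S.cv .e0).continuous.continuousOn (mem_univ z) hz).2 (by decide)
  have r1 : 2 * rq (gi d.s₁) z ≤ 4 * q.c₀ ^ 2 := tauR_le hc0 c1
  have r2 : d.u q z - Real.log (deriv d.Φ (d.u q z)) ≤ -Real.log q.aC + Real.log 2 :=
    tauU_le (u := fun z => (d.cp q).V₀ (d.u q z)) S.cp.w₀ c2
  have r3 : q.aC * Real.exp (d.u q z) ≤ 2 * deriv d.Φ (d.u q z) := by
    have a1 : Real.exp (d.u q z) ≤
        Real.exp (Real.log (deriv d.Φ (d.u q z)) + (-Real.log q.aC + Real.log 2)) :=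
      Real.exp_le_exp.2 (by linarith)
    rw [Real.exp_add, Real.exp_add, Real.exp_log hNp, Real.exp_neg, Real.exp_log ha,
      Real.exp_log (by norm_num)] at a1
    have a2 := mul_le_mul_of_nonneg_left a1 ha.le
    have a3 : q.aC * (deriv d.Φ (d.u q z) * (q.aC⁻¹ * 2)) = 2 * deriv d.Φ (d.u q z) := by
      field_simp
    linarith
  have r4 : d.u q z ≤ d.uth q + 1 ∨ deriv d.Φ (d.u q z) ≤
      q.nm * Real.exp 1 * Real.exp (d.u q z) := by
    have hu : Continuous (d.u q) := S.u.continuous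
    have hcl : IsClosed ({z : VV n | d.u q z ≤ d.uth q + 1} ∪
        {z | deriv d.Φ (d.u q z) ≤ q.nm * Real.exp 1 * Real.exp (d.u q z)}) :=
      (isClosed_le hu continuous_const).union (isClosed_le (h.Φ's.continuous.comp hu)
        (continuous_const.mul (Real.continuous_exp.comp hu)))
    refine closure_minimal (s := Function.support (d.ch q .z0)) (fun w hw => ?_) hcl hz
    have hw' : Alive Fl (d.cv q) .z0 w := hw
    have a1 : (d.cp q).VS (d.u q w) < 1 :=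
      alive_nRS (F := Fl) (P := d.cp q) (u := d.u q) (ρ := rq (gi d.s₁)) (X := d.X q) Fl_pair hw'
        (Or.inl (Or.inl rfl))
    have hNw := h.N_pos hM (d.u q w)
    have hnm : 0 < q.nm := by linarith [C.T.T.nm1]
    rcases V_lt a1 with a2 | a2
    · right
      have a3 : Real.log (deriv d.Φ (d.u q w)) ≤ Real.log (q.nm * Real.exp 1 *
          Real.exp (d.u q w)) := by
        rw [Real.log_mul (by positivity) (Real.exp_pos _).ne', Real.log_mul hnm.ne'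
          (Real.exp_pos _).ne', Real.log_exp, Real.log_exp]
        linarith
      exact (Real.log_le_log_iff hNw (by positivity)).1 a3
    · left
      show d.u q w ≤ d.uth q + 1
      linarith
  have hg1 := grad_near C.inf h (x := z.1) (hn.g1.trans (by norm_num)) hn.w1
  have hg2 := grad_near C.inf h (x := z.2) (hn.g2.trans (by norm_num)) hn.w2
  have hl1 := (gl_le C.inf h).1 hn.g1
  have hl2 := (gl_le C.inf h).1 hn.g2
  have hu := abs_le.1 (u_near h z)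
  have hup := hn.up
  refine ⟨by nlinarith [hrq.2.1], ⟨by linarith, ?_⟩, ⟨by linarith, ?_⟩, by linarith, ?_, ?_⟩
  · have := hg1.1
    unfold gs
    norm_num at this ⊢
    linarith
  · have := hg2.1
    unfold gs
    norm_num at this ⊢
    linarith
  · rcases r4 with r4 | r4
    · exact Or.inl (by linarith)
    · right
      have a1 : Real.exp 1 < 3 := by linarith [Real.exp_one_lt_d9]
      have hnm : 0 < q.nm := by linarith [C.T.T.nm1]
      have a2 : q.nm * Real.exp 1 * Real.exp (d.u q z) < 9 * q.nm * Real.exp (d.u q z) := by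
        refine mul_lt_mul_of_pos_right ?_ hE
        nlinarith
      linarith
  · have : d.utb q = 2 * d.l₀ q + 47 / 10 * q.R := rfl
    linarith [hu.2, C.T.T.R1]

end supp

/-- **What is known on the leaf `z0`.** -/
structure ZL (n : ℕ) (q : Cst) (d : Pk n) : Prop where
  dt : Dt (LZ n q) q.R d.l (gi d.s₁) d.Φ (Sz q) (OZ q d) (ΩZ q d)
  ts : tsupport (d.ch q .z0) ⊆ ΩZ q d
  W : ∀ z ∈ ΩZ q d, d.W q z = W0 d.l (gi d.s₁) d.Φ (Sz q) z
  u : ∀ z ∈ ΩZ q d, d.u q z = uf d.l z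
  ν : ∀ z ∈ ΩZ q d, NuZ q d (d.u q z)
  q : ∀ z ∈ ΩZ q d, qq z < 16 * q.c₀ ^ 2

/-- **The leaf `z0`.** -/
theorem evZ0 (hn : 1 ≤ n) : EvC fun q => LC n q ∧ ∀ d : Pk n, PkOk q d → ZL n q d := by
  refine (evLC n).mono fun q C => ?_
  exact ⟨C, fun d h =>
    { dt := dt hn C h
      ts := fun z hz => supp C h hz
      W := fun z hz => W_eq hn C h hz
      u := fun z hz => u_eq hn C h hz
      ν := fun z hz => ΩZ_nu C h hz
      q := fun z hz => hz.1 }⟩

end Vale.Agent.P088.R2.H794.Z0
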