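import Vale.Agent.P088.R2.H238.C.Nu

/-!
# P088, stage 3, region 0: the numbers `E`, `N`, `K` (both passes)

`nuZ`: for `aC E ≤ 3 N` and (`u ≤ uth + 2` or `N ≤ 9 nm E`), `u ≤ utb`.
-/

open Set Filter
open scoped ContDiff Topology

noncomputable section

namespace Vale.Agent.P088.R2.H794.Z0

open Vale.Agent.P088.R2.H31.EP
open Vale.Agent.P088.R2.H313.Ph Vale.Agent.P088.R2.H313.Tp
open Vale.Agent.P088.R2.H238.C (Th N₁ N_ge N_pos N_le N1_pos dPhi_sm dPhi_hd uth_ge uth_le
  uth_uta uta_utb l0_nn l0_le)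

/-- The bound of `u` on the first pass. -/
def UZ (q : Cst) : ℝ := Real.log (3 * Real.exp 4 * N₁ q / q.aC)

/-- The thresholds used for region 0. -/
structure Tz (q : Cst) : Prop where
  T : Th q
  nmM : 9 * q.nm ≤ q.M₀
  rV : UZ q ≤ q.R / 100

theorem EvC.tz : EvC Tz := by
  have h1 : EvC fun q => 9 * q.nm ≤ q.M₀ :=
    EvC.at_M₀ (fun q t => 9 * q.nm ≤ t) fun q => eventually_ge_atTop _
  have h2 : EvC fun q => UZ q ≤ q.R / 100 :=
    EvC.at_R (fun q t => UZ q ≤ t / 100) fun q =>
      (tendsto_id.atTop_div_const (by norm_num)).eventually_ge_atTop _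
  refine (H238.C.EvC.thr.and (h1.and h2)).mono ?_
  rintro q ⟨a, b, c⟩
  exact ⟨a, b, c⟩

variable {n : ℕ} {q : Cst} {d : Pk n}

/-- On `[uta, utb]` the slope is much larger than `E`. -/
theorem N_top' (h : PkOk q d) (T : Th q) {u : ℝ} (h1 : d.uta q ≤ u) (h2 : u ≤ d.utb q) :
    2 * q.M₀ * Real.exp u ≤ deriv d.Φ u := by
  obtain ⟨f, hf⟩ : ∃ f : ℝ → ℝ, f = fun u => deriv d.Φ u * Real.exp (-u) := ⟨_, rfl⟩
  have hd : ∀ u, HasDerivAt f ((deriv (deriv d.Φ) u - deriv d.Φ u) * Real.exp (-u)) u := by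
    intro u
    have := (dPhi_hd h u).mul ((hasDerivAt_neg u).exp)
    rw [hf]
    refine this.congr_deriv ?_
    ring
  have hm : MonotoneOn f (Icc (d.uta q) (d.utb q)) := by
    refine monotoneOn_of_deriv_nonneg (convex_Icc _ _)
      (fun v _ => (hd v).continuousAt.continuousWithinAt)
      (fun v _ => (hd v).differentiableAt.differentiableWithinAt) fun v hv => ?_
    have hv' := interior_subset hv
    rw [(hd v).deriv]
    refine mul_nonneg ?_ (Real.exp_pos _).le
    have hN := N_pos h T v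
    have hL := T.L2
    rcases le_total v (d.uta q + 1) with h3 | h3
    · have := (h.top.x2 v hv'.1 h3).1
      linarith
    · rw [h.top.x3 v h3 hv'.2]
      nlinarith
  have hk := hm ⟨le_rfl, by linarith [uta_utb (d := d) T]⟩ ⟨h1, h2⟩ h1
  have ht := uth_uta h T
  have hR := T.R1
  have hth := uth_ge h T
  have ha := h.top.y1 (d.uta q) (by linarith) le_rfl
  have hM := N_ge h (d.uth q)
  have h4 : q.M₀ * 2 ≤ f (d.uta q) := by
    rw [hf]
    simp only
    rw [ha, mul_assoc, ← Real.exp_add]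
    have h5 : (2 : ℝ) ≤ Real.exp (2 * (d.uta q - d.uth q) + -d.uta q) := by
      have := Real.add_one_le_exp (2 * (d.uta q - d.uth q) + -d.uta q)
      linarith
    have h7 := T.M1
    exact mul_le_mul hM h5 (by norm_num) (by linarith)
  have h8 := h4.trans hk
  rw [hf] at h8
  have h9 := mul_le_mul_of_nonneg_right h8 (Real.exp_pos u).le
  simp only at h9
  rw [mul_assoc (deriv d.Φ u), ← Real.exp_add, neg_add_cancel, Real.exp_zero, mul_one] at h9
  linarith

/-- The numbers on region 0. -/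
structure NuZ (q : Cst) (d : Pk n) (u : ℝ) : Prop where
  N1 : q.M₀ ≤ deriv d.Φ u
  NE : q.aC * Real.exp u ≤ 3 * deriv d.Φ u
  KN : deriv (deriv d.Φ) u ≤ 41 / 20 * deriv d.Φ u
  Kl : 3 / 10 * q.aC * Real.exp u ≤ deriv (deriv d.Φ) u
  KE : deriv (deriv d.Φ) u ≤ (q.ph.Cb + 18 * q.nm) * Real.exp u
  ua : u ≤ d.uta q
  ps : (u ≤ d.uth q / 2 ∧ deriv d.Φ u = deriv d.Φ₁ u ∧
      deriv (deriv d.Φ) u = deriv (deriv d.Φ₁) u ∧ deriv d.Φ u ≤ q.ph.Cb * q.M₀) ∨
    (3 / 2 * d.uth q ≤ u ∧ u ≤ 2 * d.uth q ∧ deriv (deriv d.Φ) u = 2 * deriv d.Φ u ∧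
      deriv d.Φ u ≤ 9 * q.nm * Real.exp u)

theorem nuZ (h : PkOk q d) (T : Tz q) {u : ℝ} (h1 : q.aC * Real.exp u ≤ 3 * deriv d.Φ u)
    (h2 : u ≤ d.uth q + 2 ∨ deriv d.Φ u ≤ 9 * q.nm * Real.exp u) (h3 : u ≤ d.utb q) :
    NuZ q d u := by
  have hN := N_ge h u
  have hM := T.T.M1
  have ha := T.T.aC0
  have ha1 := T.T.aC1
  have hNp := N_pos h T.T u
  have hE := Real.exp_pos u
  have hth := uth_ge h T.T
  have hta := uth_uta h T.T
  have hR := T.T.R1
  have hN1 := N1_pos T.T
  have hCb := T.T.Cb0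
  have hnm := T.T.nm1
  have hrV := T.rV
  have hKp := h.top.k0 u
  by_cases hu : u ≤ d.uth q + 2
  · -- the first pass
    have h5 : deriv d.Φ u ≤ Real.exp 4 * N₁ q := by
      rcases le_total u (d.uth q) with h6 | h6
      · refine (N_le h T.T h6).trans ?_
        have := Real.one_le_exp (by norm_num : (0 : ℝ) ≤ 4)
        nlinarith
      · rw [h.top.y1 u h6 (by linarith), mul_comm]
        refine mul_le_mul (Real.exp_le_exp.2 (by linarith)) (N_le h T.T le_rfl)
          (N_pos h T.T _).le (Real.exp_pos _).le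
    have h6 : Real.exp u ≤ 3 * Real.exp 4 * N₁ q / q.aC := by
      rw [le_div_iff₀ ha]
      linarith
    have h7 : u ≤ UZ q := by
      rw [← Real.log_exp u]
      exact Real.log_le_log hE h6
    have h8 : u ≤ d.uth q / 2 := by linarith
    have hN' := h.top.e1 u h8
    have hK' := h.top.e2 u h8
    have k1 := h.ph.isΦ.k1 u
    have k2 := h.ph.isΦ.k2 u
    have n2 := h.ph.isΦ.n2 u
    rw [← hK', ← hN'] at k1
    rw [← hK'] at k2
    rw [← hN'] at n2
    refine ⟨hN, h1, by linarith, ?_, ?_, by linarith, Or.inl ⟨h8, hN', hK', n2⟩⟩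
    · rcases le_total (q.nm * Real.exp u) (deriv d.Φ u) with c | c
      · have := h.ph.isΦ.p0 u (by rw [← hN']; exact c)
        rw [← hK'] at this
        nlinarith
      · have hν := T.T.ν1
        have := h.ph.isΦ.p1 u (by rw [← hN']; nlinarith) (by rw [← hN']; exact c)
        rw [← hK', ← hN'] at this
        rw [this]
        nlinarith
    · have : 0 ≤ 18 * q.nm * Real.exp u := by positivity
      linarith
  · -- the second pass
    have hu' := not_le.1 hu
    have h4 := h2.resolve_left hu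
    have h5 : u ≤ d.uta q := by
      by_contra hc
      have h6 := N_top' h T.T (not_le.1 hc).le h3
      have h7 := T.nmM
      nlinarith
    have h6 := h.top.y1 u (by linarith) h5
    have h7 := h.top.x1 u (by linarith) h5
    have hNt := N_ge h (d.uth q)
    have hNt' := N_le h T.T (le_refl (d.uth q))
    have hNp' := N_pos h T.T (d.uth q)
    have hX := Real.exp_pos (2 * (u - d.uth q))
    have h8 : u ≤ 2 * d.uth q := by
      have a1 : q.M₀ * Real.exp (2 * (u - d.uth q)) ≤ q.M₀ * Real.exp u := by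
        have b1 := mul_le_mul_of_nonneg_right hNt hX.le
        have b2 := mul_le_mul_of_nonneg_right T.nmM hE.le
        rw [h6] at h4
        linarith
      have a2 := le_of_mul_le_mul_left a1 (by linarith)
      have := Real.exp_le_exp.1 a2
      linarith
    have h9 : 3 / 2 * d.uth q ≤ u := by
      have a1 : Real.exp u ≤ 3 * Real.exp 4 * N₁ q / q.aC * Real.exp (2 * (u - d.uth q)) := by
        rw [div_mul_eq_mul_div, le_div_iff₀ ha]
        rw [h6] at h1
        have b1 : deriv d.Φ (d.uth q) * Real.exp (2 * (u - d.uth q)) ≤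
            Real.exp 4 * N₁ q * Real.exp (2 * (u - d.uth q)) := by
          refine mul_le_mul_of_nonneg_right (hNt'.trans ?_) hX.le
          have := Real.one_le_exp (by norm_num : (0 : ℝ) ≤ 4)
          nlinarith
        linarith
      have a2 := Real.log_le_log hE a1
      rw [Real.log_exp, Real.log_mul (by positivity) hX.ne', Real.log_exp] at a2
      have a3 : Real.log (3 * Real.exp 4 * N₁ q / q.aC) = UZ q := rfl
      rw [a3] at a2
      linarith
    refine ⟨hN, h1, by linarith, ?_, ?_, h5, Or.inr ⟨h9, h8, h7, h4⟩⟩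
    · rw [h7]
      nlinarith
    · rw [h7]
      have : 0 ≤ q.ph.Cb * Real.exp u := by positivity
      nlinarith

end Vale.Agent.P088.R2.H794.Z0
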